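import Vale.Agent.P042.Odd.Basic

/-!
Weyl differencing: a large exponential sum along a polynomial puts its top coefficient next to a
fraction with small denominator.  The differencing step is closed by a recurrence lemma, so no
divisor bound is needed.
-/

open Finset

namespace Vale.Agent.P042.Odd

/-- The circle character `exp (2π i t)`. -/
noncomputable def circ (t : ℝ) : ℂ := Complex.exp ((2 * Real.pi * t : ℝ) * Complex.I)

lemma norm_circ (t : ℝ) : ‖circ t‖ = 1 := Complex.norm_exp_ofReal_mul_I _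

lemma circ_re (t : ℝ) : (circ t).re = Real.cos (2 * Real.pi * t) := Complex.exp_ofReal_mul_I_re _

lemma circ_add (s t : ℝ) : circ (s + t) = circ s * circ t := by
  rw [circ, circ, circ, ← Complex.exp_add]; congr 1; push_cast; ring

lemma circ_sub (s t : ℝ) : circ (s - t) = circ s * starRingEnd ℂ (circ t) := by
  rw [circ, circ, circ, ← Complex.exp_conj, ← Complex.exp_add]
  congr 1
  rw [map_mul, Complex.conj_ofReal, Complex.conj_I]
  push_cast
  ring

lemma circ_int_add (z : ℤ) (t : ℝ) : circ ((z : ℝ) + t) = circ t := by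
  rw [circ_add]
  have : circ (z : ℝ) = 1 := by
    rw [circ, show ((2 * Real.pi * (z : ℝ) : ℝ) : ℂ) * Complex.I = (z : ℂ) * (2 * Real.pi * Complex.I)
      by push_cast; ring]
    exact Complex.exp_int_mul_two_pi_mul_I z
  rw [this, one_mul]

/-- `f` behaves like a polynomial of degree at most `d` with coefficient `α` at `n ^ d`. -/
def Top : ℕ → ℝ → (ℕ → ℝ) → Prop
  | 0, α, f => ∀ n, f n = α
  | d + 1, α, f => ∀ h : ℕ, Top d (((d : ℝ) + 1) * α * h) (fun n => f (n + h) - f n)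

lemma Top.zero : ∀ d, Top d 0 fun _ => 0
  | 0 => fun _ => rfl
  | d + 1 => fun h => by simpa using Top.zero d

lemma Top.add : ∀ {d α β f g}, Top d α f → Top d β g → Top d (α + β) fun n => f n + g n
  | 0, _, _, _, _, hf, hg => fun n => congrArg₂ (· + ·) (hf n) (hg n)
  | d + 1, α, β, f, g, hf, hg => fun h => by
    have := Top.add (hf h) (hg h)
    convert this using 1
    · ring
    · funext n; ring

lemma Top.smul (c : ℝ) : ∀ {d α f}, Top d α f → Top d (c * α) fun n => c * f n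
  | 0, _, _, hf => fun n => congrArg (c * ·) (hf n)
  | d + 1, α, f, hf => fun h => by
    have := Top.smul c (hf h)
    convert this using 1
    · ring
    · funext n; ring

lemma Top.sum {ι : Type*} {d : ℕ} (s : Finset ι) (α : ι → ℝ) (f : ι → ℕ → ℝ)
    (h : ∀ i ∈ s, Top d (α i) (f i)) : Top d (∑ i ∈ s, α i) fun n => ∑ i ∈ s, f i n := by
  classical
  induction s using Finset.induction_on with
  | empty => simpa using Top.zero d
  | insert a s ha ih =>
    simp only [sum_insert ha]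
    exact (h a (mem_insert_self a s)).add (ih fun i hi => h i (mem_insert_of_mem hi))

lemma top_pow : ∀ d j : ℕ, j ≤ d → Top d (if j = d then 1 else 0) fun n => (n : ℝ) ^ j
  | 0, j, hj => fun n => by obtain rfl : j = 0 := by omega
                            simp
  | d + 1, j, hj => fun h => by
    have hs := Top.sum (d := d) (range j) (fun i => ((j.choose i : ℝ) * (h : ℝ) ^ (j - i)) *
      if i = d then 1 else 0) (fun i n => ((j.choose i : ℝ) * (h : ℝ) ^ (j - i)) * (n : ℝ) ^ i)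
      fun i hi => Top.smul _ (top_pow d i (by have := mem_range.1 hi; omega))
    convert hs using 1
    · rcases eq_or_ne j (d + 1) with rfl | hne
      · rw [if_pos rfl, sum_eq_single d]
        · simp [Nat.choose_succ_self_right]
        · intro i _ hi; simp [hi]
        · intro hd; exact absurd (mem_range.2 (by omega)) hd
      · rw [if_neg hne]
        rw [sum_eq_zero fun i hi => by
          have : i ≠ d := by have := mem_range.1 hi; omega
          simp [this]]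
        simp
    · funext n
      push_cast
      rw [add_pow, sum_range_succ, Nat.choose_self, Nat.sub_self]
      simp only [pow_zero, Nat.cast_one, mul_one, add_sub_cancel_right]
      exact sum_congr rfl fun i _ => by ring

lemma top_shift_pow (α : ℝ) (k : ℕ) : Top k α fun n => α * ((n : ℝ) + 1) ^ k := by
  have h := Top.smul α (Top.sum (d := k) (range (k + 1))
    (fun i => (k.choose i : ℝ) * if i = k then 1 else 0) (fun i n => (k.choose i : ℝ) * (n : ℝ) ^ i)
    fun i hi => Top.smul _ (top_pow k i (by have := mem_range.1 hi; omega)))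
  convert h using 1
  · rw [sum_eq_single k]
    · simp
    · intro i _ hi; simp [hi]
    · intro hk; exact absurd (mem_range.2 (by omega)) hk
  · funext n
    rw [add_pow]
    simp [mul_comm]

lemma two_mul_norm_geom_le (t : ℝ) (a : ℤ) (ha : |t - a| ≤ 1 / 2) (X : ℕ) :
    2 * |t - a| * ‖∑ n ∈ range X, circ t ^ n‖ ≤ 1 := by
  have hx : circ t = circ (t - a) := by rw [← circ_int_add a (t - a)]; congr 1; ring
  rw [hx]
  set s := t - a
  have h1 : ‖circ s - 1‖ = 2 * |Real.sin (Real.pi * s)| := by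
    rw [circ, mul_comm ((2 * Real.pi * s : ℝ) : ℂ), Complex.norm_exp_I_mul_ofReal_sub_one,
      Real.norm_eq_abs, abs_mul, abs_of_pos (by norm_num : (0 : ℝ) < 2)]
    congr 3
    ring
  have h2 : 2 * |s| ≤ |Real.sin (Real.pi * s)| := by
    have hpi := Real.pi_pos
    have := Real.mul_abs_le_abs_sin (x := Real.pi * s)
      (by rw [abs_mul, abs_of_pos hpi]; nlinarith)
    rw [abs_mul, abs_of_pos hpi] at this
    calc 2 * |s| = 2 / Real.pi * (Real.pi * |s|) := by field_simp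
      _ ≤ _ := this
  have h3 : ‖∑ n ∈ range X, circ s ^ n‖ * ‖circ s - 1‖ ≤ 2 := by
    rw [← norm_mul, geom_sum_mul]
    refine (norm_sub_le _ _).trans ?_
    rw [norm_pow, norm_circ, one_pow, norm_one]
    norm_num
  rw [h1] at h3
  nlinarith [norm_nonneg (∑ n ∈ range X, circ s ^ n), abs_nonneg s]

/-- Reindexing pairs `j < i` by their difference. -/
lemma sum_pairs {M : Type*} [AddCommMonoid M] (g : ℕ → ℕ → M) (X : ℕ) :
    ∑ i ∈ range X, ∑ j ∈ range i, g i j =
      ∑ h ∈ range X, ∑ j ∈ range (X - (h + 1)), g (j + (h + 1)) j := by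
  induction X with
  | zero => simp
  | succ X ih =>
    rw [sum_range_succ, ih]
    conv_rhs => rw [sum_range_succ, Nat.sub_self, sum_range_zero, add_zero]
    rw [← sum_range_reflect (fun j => g X j) X, ← sum_add_distrib]
    refine sum_congr rfl fun h hh => ?_
    have hh' := mem_range.1 hh
    rw [show X + 1 - (h + 1) = (X - (h + 1)) + 1 by omega, sum_range_succ]
    congr 2
    · omega
    · omega

lemma norm_sq_le (f : ℕ → ℝ) (X : ℕ) :
    ‖∑ n ∈ range X, circ (f n)‖ ^ 2 ≤ X + 2 * ∑ h ∈ range X,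
      ‖∑ j ∈ range (X - (h + 1)), circ (f (j + (h + 1)) - f j)‖ := by
  have he : ‖∑ n ∈ range X, circ (f n)‖ ^ 2 =
      X + 2 * (∑ i ∈ range X, ∑ j ∈ range i, circ (f i - f j)).re := by
    induction X with
    | zero => simp
    | succ X ih =>
      rw [sum_range_succ, sum_range_succ (fun i => ∑ j ∈ range i, circ (f i - f j)),
        Complex.sq_norm, Complex.normSq_add, ← Complex.sq_norm, ← Complex.sq_norm, ih, norm_circ,
        Complex.add_re]
      simp only [circ_sub, ← mul_sum, ← map_sum]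
      simp only [Complex.mul_re, Complex.conj_re, Complex.conj_im]
      push_cast
      ring
  rw [he, sum_pairs (fun i j => circ (f i - f j))]
  have := (Complex.re_le_norm (∑ h ∈ range X, ∑ j ∈ range (X - (h + 1)),
    circ (f (j + (h + 1)) - f j))).trans (norm_sum_le _ _)
  linarith

/-- Many multiples of `γ` near integers put `γ` near a fraction with small denominator. -/
lemma recurrence {M : ℕ} {H : Finset ℕ} (hH : H ⊆ Icc 1 M) {δ η γ : ℝ} (hδ : 0 < δ) (hδ1 : δ ≤ 1)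
    (hη : 0 ≤ η) (hM : 1 ≤ M) (hcard : δ * M ≤ H.card) (hsmall : η < δ / 32)
    (hnear : ∀ h ∈ H, ∃ z : ℤ, |(h : ℝ) * γ - z| ≤ η) :
    ∃ q : ℕ, 1 ≤ q ∧ (q : ℝ) ≤ 16 / δ ∧ ∃ a : ℤ, |(q : ℝ) * γ - a| ≤ 16 * η / (δ ^ 2 * M) := by
  have hMr : (1 : ℝ) ≤ M := by exact_mod_cast hM
  have hne : H.Nonempty := by
    rw [← card_pos]
    exact_mod_cast lt_of_lt_of_le (show (0 : ℝ) < δ * M by positivity) hcard
  have hδM : 0 < δ ^ 2 * (M : ℝ) := by positivity
  rcases lt_or_ge (δ * (M : ℝ)) 16 with hsm | hlg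
  · obtain ⟨h, hh⟩ := hne
    obtain ⟨z, hz⟩ := hnear h hh
    obtain ⟨h1, h2⟩ := mem_Icc.1 (hH hh)
    refine ⟨h, h1, ?_, z, hz.trans ?_⟩
    · rw [le_div_iff₀ hδ]
      have : (h : ℝ) ≤ M := by exact_mod_cast h2
      nlinarith
    · rw [le_div_iff₀ hδM]
      nlinarith [mul_nonneg hη hδ.le]
  obtain ⟨r, hr, hden⟩ := Real.exists_rat_abs_sub_le_and_den_le γ (show 0 < 2 * M by omega)
  set q := r.den with hq
  have hq1 : 1 ≤ q := r.den_pos
  have hqr : (1 : ℝ) ≤ q := by exact_mod_cast hq1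
  have hq2 : (q : ℝ) ≤ 2 * M := by exact_mod_cast hden
  have happrox : |(q : ℝ) * γ - r.num| ≤ 1 / (2 * (M : ℝ) + 1) := by
    have e : (q : ℝ) * γ - r.num = q * (γ - (r : ℝ)) := by
      rw [Rat.cast_def, mul_sub, ← hq, mul_div_cancel₀ _ (show (q : ℝ) ≠ 0 by positivity)]
    rw [e, abs_mul, Nat.abs_cast]
    calc (q : ℝ) * |γ - (r : ℝ)| ≤ q * (1 / ((((2 * M : ℕ) : ℝ) + 1) * q)) := by gcongr
      _ = _ := by push_cast; field_simp
  -- every member of `H` is small in `h * r.num` modulo `q`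
  choose! z hz using hnear
  set ψ : ℕ → ℤ := fun h => (h : ℤ) * r.num - (q : ℤ) * z h with hψ
  have hψb : ∀ h ∈ H, |(ψ h : ℝ)| < 1 / 2 + q * η ∧
      |(h : ℝ) * ((q : ℝ) * γ - r.num) + (ψ h : ℝ)| ≤ q * η := by
    intro h hh
    have e : (h : ℝ) * ((q : ℝ) * γ - r.num) + (ψ h : ℝ) = q * ((h : ℝ) * γ - z h) := by
      simp only [hψ]; push_cast; ring
    have h2 : |(h : ℝ) * ((q : ℝ) * γ - r.num) + (ψ h : ℝ)| ≤ q * η := by
      rw [e, abs_mul, Nat.abs_cast]
      exact mul_le_mul_of_nonneg_left (hz h hh) (Nat.cast_nonneg _)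
    refine ⟨?_, h2⟩
    have hhM : (h : ℝ) ≤ M := by exact_mod_cast (mem_Icc.1 (hH hh)).2
    have h3 : |(h : ℝ) * ((q : ℝ) * γ - r.num)| < 1 / 2 := by
      rw [abs_mul, Nat.abs_cast]
      calc (h : ℝ) * |(q : ℝ) * γ - r.num| ≤ M * (1 / (2 * (M : ℝ) + 1)) := by
            exact mul_le_mul hhM happrox (abs_nonneg _) (by positivity)
        _ < 1 / 2 := by rw [mul_one_div, div_lt_div_iff₀ (by positivity) (by norm_num)]; linarith
    have h4 := abs_add_le ((h : ℝ) * ((q : ℝ) * γ - r.num) + (ψ h : ℝ))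
      (-((h : ℝ) * ((q : ℝ) * γ - r.num)))
    rw [abs_neg, add_neg_cancel_comm] at h4
    linarith
  set m := ⌊1 / 2 + (q : ℝ) * η⌋₊ with hm
  have hmle : (m : ℝ) ≤ 1 / 2 + q * η := Nat.floor_le (by positivity)
  have hψm : ∀ h ∈ H, ψ h ∈ Icc (-(m : ℤ)) m := by
    intro h hh
    have h1 : (ψ h).natAbs ≤ m := by
      refine Nat.le_floor ?_
      rw [Nat.cast_natAbs, Int.cast_abs]
      exact (hψb h hh).1.le
    rw [mem_Icc]; omega
  have hfib : ∀ v ∈ Icc (-(m : ℤ)) m, (H.filter fun h => ψ h = v).card ≤ M / q + 1 := by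
    intro v _
    refine le_trans (card_le_card_of_injOn (fun h => h / q) (t := range (M / q + 1)) ?_ ?_)
      (card_range _).le
    · intro h hh
      rw [mem_coe, mem_filter] at hh
      exact mem_coe.2 (mem_range.2 (Nat.lt_succ_of_le
        (Nat.div_le_div_right (mem_Icc.1 (hH hh.1)).2)))
    · intro h hh h' hh' e
      rw [coe_filter, Set.mem_ofPred_eq] at hh hh'
      have hdvd : (q : ℤ) ∣ ((h : ℤ) - h') * r.num := ⟨z h - z h', by
        have := hh.2.trans hh'.2.symm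
        simp only [hψ] at this
        linarith⟩
      have hcop : IsCoprime (q : ℤ) r.num :=
        (Int.isCoprime_iff_nat_coprime.2 (by simpa using r.reduced)).symm
      have hmod : h % q = h' % q :=
        Nat.modEq_of_dvd (by simpa [neg_sub] using (hcop.dvd_of_dvd_mul_right hdvd).neg_right)
      rw [← Nat.div_add_mod h q, ← Nat.div_add_mod h' q, hmod]
      simp only at e
      rw [e]
  have hcount : (H.card : ℝ) ≤ (2 * (m : ℝ) + 1) * ((M : ℝ) / q + 1) := by
    have h1 := card_le_mul_card_image (f := ψ) H (M / q + 1) fun v hv => by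
      obtain ⟨h, hh, rfl⟩ := mem_image.1 hv
      exact hfib _ (hψm h hh)
    have h2 : (H.image ψ).card ≤ 2 * m + 1 := by
      refine (card_le_card (image_subset_iff.2 hψm)).trans ?_
      rw [Int.card_Icc]; omega
    have h3 : (H.card : ℝ) ≤ (((M / q : ℕ) : ℝ) + 1) * (2 * (m : ℝ) + 1) := by
      exact_mod_cast h1.trans (Nat.mul_le_mul_left _ h2)
    refine h3.trans ?_
    rw [mul_comm]
    gcongr
    exact Nat.cast_div_le
  have hexp : (2 * (m : ℝ) + 1) * ((M : ℝ) / q + 1) ≤ 2 * η * M + 2 * (M / q) + 4 * M * η + 2 := by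
    calc (2 * (m : ℝ) + 1) * ((M : ℝ) / q + 1) ≤ (2 + 2 * q * η) * ((M : ℝ) / q + 1) :=
          mul_le_mul_of_nonneg_right (by linarith) (by positivity)
      _ = 2 * η * M + 2 * (M / q) + 2 * q * η + 2 := by field_simp; ring
      _ ≤ _ := by nlinarith
  have hq16 : (q : ℝ) ≤ 16 / δ := by
    rw [le_div_iff₀ hδ]
    have h1 : δ * M ≤ 8 * (M / q : ℝ) := by nlinarith
    rw [← mul_div_assoc, le_div_iff₀ (by positivity)] at h1
    nlinarith
  have hqη : (q : ℝ) * η < 1 / 2 := by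
    rw [le_div_iff₀ hδ] at hq16
    nlinarith
  refine ⟨q, hq1, hq16, r.num, ?_⟩
  set h := H.max' hne with hh
  have hhH : h ∈ H := max'_mem _ _
  have hbig : δ * M ≤ (h : ℝ) := by
    refine hcard.trans ?_
    have : H ⊆ Icc 1 h := fun x hx => mem_Icc.2 ⟨(mem_Icc.1 (hH hx)).1, le_max' _ _ hx⟩
    have := card_le_card this
    rw [Nat.card_Icc, Nat.add_sub_cancel] at this
    exact_mod_cast this
  obtain ⟨hb1, hb2⟩ := hψb h hhH
  have hz0 : ψ h = 0 := by
    by_contra h0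
    have : (1 : ℝ) ≤ |(ψ h : ℝ)| := by exact_mod_cast Int.one_le_abs h0
    linarith
  rw [hz0, Int.cast_zero, add_zero, abs_mul, Nat.abs_cast] at hb2
  rw [le_div_iff₀ hδM]
  calc |(q : ℝ) * γ - r.num| * (δ ^ 2 * M) = δ * ((δ * M) * |(q : ℝ) * γ - r.num|) := by ring
    _ ≤ δ * ((h : ℝ) * |(q : ℝ) * γ - r.num|) := by gcongr
    _ ≤ δ * (q * η) := mul_le_mul_of_nonneg_left hb2 hδ.le
    _ ≤ 16 * η := by
        rw [le_div_iff₀ hδ] at hq16
        nlinarith [mul_le_mul_of_nonneg_right hq16 hη]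

/-- Weyl's inequality in inverse form. -/
theorem weyl_top : ∀ d : ℕ, 1 ≤ d → ∃ C E : ℕ, ∀ (K M X : ℕ) (f : ℕ → ℝ) (α : ℝ),
    1 ≤ K → 1 ≤ M → X ≤ M → Top d α f → (M : ℝ) / K ≤ ‖∑ n ∈ range X, circ (f n)‖ →
    ∃ q : ℕ, 1 ≤ q ∧ q ≤ C * K ^ E ∧ ∃ a : ℤ, |(q : ℝ) * α - a| ≤ (C : ℝ) * (K : ℝ) ^ E / (M : ℝ) ^ d := by
  intro d hd
  induction d, hd using Nat.le_induction with
  | base =>
    refine ⟨1, 1, fun K M X f α hK hM hX hf hbig => ⟨1, le_rfl, by simpa using hK, round α, ?_⟩⟩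
    have hlin : ∀ n : ℕ, f n = f 0 + α * n := by
      intro n
      have := hf n 0
      simp only [Nat.cast_zero, zero_add, one_mul] at this
      linarith
    have hpow : ∀ n : ℕ, circ (f n) = circ (f 0) * circ α ^ n := by
      intro n
      rw [hlin n, circ_add, circ, circ, circ, ← Complex.exp_nat_mul]
      congr 2
      push_cast
      ring
    rw [sum_congr rfl fun n _ => hpow n, ← mul_sum] at hbig
    rw [norm_mul, norm_circ, one_mul] at hbig
    have hg := two_mul_norm_geom_le α (round α) (abs_sub_round α) X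
    have hKr : (1 : ℝ) ≤ K := by exact_mod_cast hK
    rw [Nat.cast_one, one_mul, one_mul, pow_one, pow_one, le_div_iff₀ (by positivity)]
    rw [div_le_iff₀ (by positivity)] at hbig
    nlinarith [mul_le_mul_of_nonneg_left hbig (abs_nonneg (α - round α)),
      norm_nonneg (∑ n ∈ range X, circ α ^ n)]
  | succ d hd ih =>
    obtain ⟨C, E, hW⟩ := ih
    refine ⟨(d + 1) * 65536 * (C * 8 ^ E + 1) ^ 4 * 4 ^ (d + 1), 4 + 8 * E + 2 * (d + 1),
      fun K M X f α hK hM hX hf hbig => ?_⟩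
    set Q := (C * 8 ^ E + 1) * K ^ (2 * E) with hQ
    set U := (d + 1) * 65536 * (C * 8 ^ E + 1) ^ 4 * 4 ^ (d + 1) * K ^ (4 + 8 * E + 2 * (d + 1))
      with hU
    have hU' : U = (d + 1) * 65536 * K ^ 4 * Q ^ 4 * (4 * K ^ 2) ^ (d + 1) := by
      rw [hU, hQ, mul_pow, mul_pow, ← pow_mul, ← pow_mul]; ring
    have hQ1 : 1 ≤ Q := Nat.mul_pos (Nat.succ_pos _) (Nat.pow_pos hK)
    have hQ4 : 1 ≤ Q ^ 4 := Nat.one_le_pow _ _ hQ1
    have hK2 : 1 ≤ (4 * K ^ 2) ^ (d + 1) := Nat.one_le_pow _ _ (by positivity)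
    have hQC : C * (8 * K ^ 2) ^ E ≤ Q := by
      rw [hQ, mul_pow, ← pow_mul, ← mul_assoc]; exact Nat.mul_le_mul_right _ (Nat.le_succ _)
    have hK41 : 1 ≤ K ^ 4 := Nat.one_le_pow _ _ hK
    have hU1 : 1 ≤ U := Nat.mul_pos (Nat.mul_pos (Nat.succ_pos _) (by positivity) ) (by positivity)
    have hUcast : ((((d + 1) * 65536 * (C * 8 ^ E + 1) ^ 4 * 4 ^ (d + 1) : ℕ)) : ℝ) *
        (K : ℝ) ^ (4 + 8 * E + 2 * (d + 1)) = (U : ℝ) := by rw [hU]; push_cast; ring
    rw [hUcast]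
    have hKr : (1 : ℝ) ≤ K := by exact_mod_cast hK
    have hMr : (1 : ℝ) ≤ M := by exact_mod_cast hM
    have htriv : M ^ (d + 1) ≤ U → ∃ q : ℕ, 1 ≤ q ∧ q ≤ U ∧ ∃ a : ℤ,
        |(q : ℝ) * α - a| ≤ (U : ℝ) / (M : ℝ) ^ (d + 1) := fun h => by
      refine ⟨1, le_rfl, hU1, round α, ?_⟩
      rw [Nat.cast_one, one_mul]
      refine ((abs_sub_round α).trans (by norm_num : (1 : ℝ) / 2 ≤ 1)).trans ?_
      rw [le_div_iff₀ (by positivity), one_mul]
      exact_mod_cast h
    rcases lt_or_ge M (4 * K ^ 2) with hMs | hMl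
    · refine htriv ((Nat.pow_le_pow_left hMs.le _).trans ?_)
      rw [hU']
      exact Nat.le_mul_of_pos_left _ (by positivity)
    rcases le_or_gt (M ^ d) (256 * K ^ 2 * Q) with hηs | hηl
    · refine htriv ?_
      calc M ^ (d + 1) ≤ M ^ (2 * d) := Nat.pow_le_pow_right hM (by omega)
        _ = (M ^ d) ^ 2 := by rw [← pow_mul, mul_comm]
        _ ≤ (256 * K ^ 2 * Q) ^ 2 * Q ^ 0 := by rw [pow_zero, mul_one]; exact Nat.pow_le_pow_left hηs 2
        _ ≤ (256 * K ^ 2 * Q) ^ 2 * Q ^ 2 := Nat.mul_le_mul_left _ (Nat.pow_le_pow_right hQ1 (by omega))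
        _ = 1 * 65536 * K ^ 4 * Q ^ 4 * 1 := by ring
        _ ≤ _ := by rw [hU']; gcongr; omega
    rcases le_or_gt (M ^ d) (256 * K ^ 2 * Q ^ 2) with hηs | hηl'
    · refine htriv ?_
      calc M ^ (d + 1) ≤ M ^ (2 * d) := Nat.pow_le_pow_right hM (by omega)
        _ = (M ^ d) ^ 2 := by rw [← pow_mul, mul_comm]
        _ ≤ (256 * K ^ 2 * Q ^ 2) ^ 2 := Nat.pow_le_pow_left hηs 2
        _ = 1 * 65536 * K ^ 4 * Q ^ 4 * 1 := by ring
        _ ≤ _ := by rw [hU']; gcongr; omega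
    clear hηl
    -- differencing
    set F : ℕ → ℝ := fun h => ‖∑ j ∈ range (X - (h + 1)), circ (f (j + (h + 1)) - f j)‖ with hF
    set G := (range X).filter fun h => (M : ℝ) / ((8 * K ^ 2 : ℕ) : ℝ) ≤ F h with hG
    have hXr : (X : ℝ) ≤ M := by exact_mod_cast hX
    have hGcard : (M : ℝ) / (4 * (K : ℝ) ^ 2) ≤ G.card := by
      have h1 := norm_sq_le f X
      have h2 : ((M : ℝ) / K) ^ 2 ≤ ‖∑ n ∈ range X, circ (f n)‖ ^ 2 := by gcongr
      have h3 : ∑ h ∈ range X, F h ≤ G.card * (M : ℝ) + M * (M / (8 * (K : ℝ) ^ 2)) := by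
        rw [← sum_filter_add_sum_filter_not (range X) (fun h => (M : ℝ) / ((8 * K ^ 2 : ℕ) : ℝ) ≤ F h)]
        gcongr ?_ + ?_
        · refine (sum_le_card_nsmul _ _ (M : ℝ) fun h _ => ?_).trans_eq (nsmul_eq_mul _ _)
          simp only [hF]
          refine (norm_sum_le _ _).trans ?_
          simp only [norm_circ, sum_const, card_range, nsmul_eq_mul, mul_one]
          exact le_trans (by exact_mod_cast Nat.sub_le X (h + 1)) hXr
        · refine (sum_le_card_nsmul _ _ ((M : ℝ) / (8 * (K : ℝ) ^ 2)) fun h hh => ?_).trans ?_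
          · have := not_le.1 (mem_filter.1 hh).2
            push_cast at this
            exact this.le
          · rw [nsmul_eq_mul]
            gcongr
            exact ((card_filter_le _ _).trans_eq (card_range X)).trans hX
      have h4 : 4 * (K : ℝ) ^ 2 ≤ M := by exact_mod_cast hMl
      have h5 : (M : ℝ) ^ 2 / (K : ℝ) ^ 2 ≤ M + 2 * (G.card * (M : ℝ) + M * (M / (8 * (K : ℝ) ^ 2))) := by
        rw [← div_pow]; simp only [hF] at h3; linarith
      field_simp at h5 ⊢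
      nlinarith
    -- the inner sums
    have hin : ∀ h ∈ G, ∃ q ∈ Icc 1 Q, ∃ a : ℤ,
        |(((h + 1 : ℕ) : ℝ)) * ((q : ℝ) * ((d + 1) * α)) - a| ≤ (Q : ℝ) / (M : ℝ) ^ d := by
      intro h hh
      obtain ⟨q, hq1, hq2, a, ha⟩ := hW (8 * K ^ 2) M (X - (h + 1))
        (fun n => f (n + (h + 1)) - f n) (((d : ℝ) + 1) * α * ((h + 1 : ℕ) : ℝ))
        (Nat.mul_pos (by norm_num) (Nat.pow_pos hK)) hM (le_trans (Nat.sub_le _ _) hX) (hf (h + 1))
        (by have := (mem_filter.1 hh).2; simpa [hF] using this)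
      refine ⟨q, mem_Icc.2 ⟨hq1, hq2.trans hQC⟩, a, ?_⟩
      have e : (((h + 1 : ℕ) : ℝ)) * ((q : ℝ) * ((d + 1) * α)) - a =
          (q : ℝ) * (((d : ℝ) + 1) * α * ((h + 1 : ℕ) : ℝ)) - a := by ring
      rw [e]
      refine ha.trans ?_
      gcongr
      exact_mod_cast hQC
    choose! qf hqf hnf using hin
    obtain ⟨q, hq, hqcard⟩ : ∃ q ∈ Icc 1 Q, (G.card : ℝ) ≤ Q * (G.filter fun h => qf h = q).card := by
      by_contra hcon
      push Not at hcon
      have h1 : ∑ q ∈ Icc 1 Q, ((G.filter fun h => qf h = q).card : ℝ) = G.card := by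
        exact_mod_cast (card_eq_sum_card_fiberwise fun h hh => hqf h hh).symm
      have h2 := sum_lt_sum_of_nonempty ⟨1, mem_Icc.2 ⟨le_rfl, hQ1⟩⟩ fun q hq => hcon q hq
      simp only [← mul_sum, h1, sum_const, Nat.card_Icc, Nat.add_sub_cancel, nsmul_eq_mul] at h2
      exact lt_irrefl _ h2
    set H := (G.filter fun h => qf h = q).image (· + 1) with hH
    have hHsub : H ⊆ Icc 1 M := by
      intro x hx
      obtain ⟨h, hh, rfl⟩ := mem_image.1 hx
      have := mem_range.1 (mem_filter.1 (mem_filter.1 hh).1).1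
      exact mem_Icc.2 ⟨by omega, by omega⟩
    have hHcard : H.card = (G.filter fun h => qf h = q).card :=
      card_image_of_injective _ fun x y e => Nat.succ_injective e
    have hQr : (1 : ℝ) ≤ Q := by exact_mod_cast hQ1
    set δ : ℝ := 1 / (8 * (K : ℝ) ^ 2 * Q) with hδ
    have hδ0 : 0 < δ := by positivity
    have hδ1 : δ ≤ 1 := by
      rw [hδ, div_le_one (by positivity)]; nlinarith [one_le_pow₀ (n := 2) hKr]
    have hδH : δ * (M : ℝ) ≤ H.card := by
      rw [hHcard, hδ]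
      calc 1 / (8 * (K : ℝ) ^ 2 * Q) * M ≤ M / (4 * (K : ℝ) ^ 2) / Q := by
            rw [div_div, one_div_mul_eq_div]; gcongr; norm_num
        _ ≤ (G.card : ℝ) / Q := by gcongr
        _ ≤ _ := by rw [div_le_iff₀ (by positivity), mul_comm]; exact hqcard
    have hηsmall : (Q : ℝ) / (M : ℝ) ^ d < δ / 32 := by
      have : (256 * K ^ 2 * Q ^ 2 : ℝ) < (M : ℝ) ^ d := by exact_mod_cast hηl'
      rw [hδ, div_div, div_lt_div_iff₀ (by positivity) (by positivity)]
      nlinarith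
    have hnear : ∀ x ∈ H, ∃ z : ℤ, |(x : ℝ) * ((q : ℝ) * ((d + 1) * α)) - z| ≤
        (Q : ℝ) / (M : ℝ) ^ d := by
      intro x hx
      obtain ⟨h, hh, rfl⟩ := mem_image.1 hx
      obtain ⟨a, ha⟩ := hnf h (mem_filter.1 hh).1
      rw [(mem_filter.1 hh).2] at ha
      exact ⟨a, ha⟩
    obtain ⟨q', hq'1, hq'2, a, ha⟩ :=
      recurrence hHsub hδ0 hδ1 (by positivity) hM hδH hηsmall hnear
    obtain ⟨hq1, hqQ⟩ := mem_Icc.1 hq
    refine ⟨q' * q * (d + 1), Nat.mul_pos (Nat.mul_pos hq'1 hq1) (Nat.succ_pos _), ?_, a, ?_⟩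
    · have h1 : q' ≤ 128 * K ^ 2 * Q := by
        have : (q' : ℝ) ≤ 128 * (K : ℝ) ^ 2 * Q := by
          refine hq'2.trans_eq ?_; rw [hδ]; field_simp; ring
        exact_mod_cast this
      rw [hU']
      calc q' * q * (d + 1) ≤ 128 * K ^ 2 * Q * Q * (d + 1) := by gcongr
        _ = (d + 1) * 128 * K ^ 2 * Q ^ 2 * 1 := by ring
        _ ≤ _ := by gcongr <;> omega
    · have e : (((q' * q * (d + 1) : ℕ)) : ℝ) * α = (q' : ℝ) * ((q : ℝ) * ((d + 1) * α)) := by
        push_cast; ring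
      rw [e]
      refine ha.trans ?_
      have hU2 : (1024 : ℝ) * (K : ℝ) ^ 4 * (Q : ℝ) ^ 3 ≤ U := by
        rw [hU']
        have h1 : 1024 * K ^ 4 * Q ^ 3 ≤ (d + 1) * 65536 * K ^ 4 * Q ^ 4 * (4 * K ^ 2) ^ (d + 1) := by
          calc 1024 * K ^ 4 * Q ^ 3 = 1 * 1024 * K ^ 4 * Q ^ 3 * 1 := by ring
            _ ≤ _ := by gcongr <;> omega
        exact_mod_cast h1
      calc 16 * ((Q : ℝ) / (M : ℝ) ^ d) / (δ ^ 2 * M)
          = 1024 * (K : ℝ) ^ 4 * (Q : ℝ) ^ 3 / (M : ℝ) ^ (d + 1) := by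
            rw [hδ]; field_simp; ring
        _ ≤ _ := by gcongr

/-- Abel's inequality. -/
lemma norm_abel (u : ℕ → ℝ) (z : ℕ → ℂ) (B : ℝ) (h0 : 0 ≤ u 0) (hmono : Monotone u) (n : ℕ)
    (hB : ∀ Y ≤ n + 1, ‖∑ i ∈ range Y, z i‖ ≤ B) :
    ‖∑ i ∈ range (n + 1), (u i : ℂ) * z i‖ ≤ 2 * B * u n := by
  have hB0 : 0 ≤ B := le_trans (norm_nonneg _) (hB 0 (Nat.zero_le _))
  have key : ∀ m ≤ n, ‖(∑ i ∈ range m, (u i : ℂ) * z i) - (u m : ℂ) * ∑ i ∈ range m, z i‖ ≤
      B * u m := by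
    intro m hm
    induction m with
    | zero => simpa using mul_nonneg hB0 h0
    | succ m ih =>
      have e : (∑ i ∈ range (m + 1), (u i : ℂ) * z i) - (u (m + 1) : ℂ) * ∑ i ∈ range (m + 1), z i =
          ((∑ i ∈ range m, (u i : ℂ) * z i) - (u m : ℂ) * ∑ i ∈ range m, z i) +
            ((u m - u (m + 1) : ℝ) : ℂ) * ∑ i ∈ range (m + 1), z i := by
        rw [sum_range_succ, sum_range_succ]; push_cast; ring
      rw [e]
      refine (norm_add_le _ _).trans ?_
      rw [norm_mul, Complex.norm_real, Real.norm_eq_abs,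
        abs_of_nonpos (sub_nonpos.2 (hmono (Nat.le_succ m)))]
      have := ih (by omega)
      have := mul_le_mul_of_nonneg_left (hB (m + 1) (by omega))
        (show 0 ≤ -(u m - u (m + 1)) by linarith [hmono (Nat.le_succ m)])
      linarith
  have e : ∑ i ∈ range (n + 1), (u i : ℂ) * z i =
      ((∑ i ∈ range n, (u i : ℂ) * z i) - (u n : ℂ) * ∑ i ∈ range n, z i) +
        (u n : ℂ) * ∑ i ∈ range (n + 1), z i := by
    rw [sum_range_succ, sum_range_succ]; ring
  have hun : 0 ≤ u n := h0.trans (hmono (Nat.zero_le n))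
  rw [e]
  refine (norm_add_le _ _).trans ?_
  rw [norm_mul, Complex.norm_real, Real.norm_eq_abs, abs_of_nonneg hun]
  have := key n le_rfl
  have := mul_le_mul_of_nonneg_left (hB (n + 1) le_rfl) hun
  linarith

/-- Minor arcs: a large dilated sum puts `g ^ k * θ` near a fraction with small denominator. -/
theorem dilSum_minor {k : ℕ} (hk : 1 ≤ k) : ∃ C E : ℕ, ∀ (M g K : ℕ) (θ : ℝ),
    1 ≤ M → 1 ≤ g → 1 ≤ K → (g : ℝ) * (M : ℝ) ^ (2 * k) / K ≤ |dilSum k M g θ| →
    ∃ q : ℕ, 1 ≤ q ∧ q ≤ C * K ^ E ∧ ∃ a : ℤ,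
      |(q : ℝ) * ((g : ℝ) ^ k * θ) - a| ≤ ((C : ℝ) * (K : ℝ) ^ E) / (M : ℝ) ^ k := by
  obtain ⟨C, E, hW⟩ := weyl_top k hk
  refine ⟨C * 4 ^ E, E, fun M g K θ hM hg hK hbig => ?_⟩
  set α := (g : ℝ) ^ k * θ with hα
  set z : ℕ → ℂ := fun m => circ (α * ((m : ℝ) + 1) ^ k) with hz
  have hMr : (1 : ℝ) ≤ M := by exact_mod_cast hM
  have hgr : (1 : ℝ) ≤ g := by exact_mod_cast hg
  have hKr : (1 : ℝ) ≤ K := by exact_mod_cast hK
  have hreindex : ∑ n ∈ (Icc 1 M).filter (g ∣ ·),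
      weight k M n * Real.cos (2 * Real.pi * θ * (n : ℝ) ^ k) =
      ∑ m ∈ range (M / g), weight k M ((g : ℝ) * ((m : ℝ) + 1)) * (z m).re := by
    symm
    refine sum_bij' (fun m _ => g * (m + 1)) (fun n _ => n / g - 1) ?_ ?_ ?_ ?_ ?_
    · intro m hm
      rw [mem_range] at hm
      rw [mem_filter, mem_Icc]
      refine ⟨⟨Nat.mul_pos hg (Nat.succ_pos m), ?_⟩, Dvd.intro _ rfl⟩
      exact le_trans (Nat.mul_le_mul_left g hm) (Nat.mul_div_le M g)
    · intro n hn
      obtain ⟨hn', t, rfl⟩ := mem_filter.1 hn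
      rw [mem_Icc] at hn'
      rw [Nat.mul_div_cancel_left _ hg, mem_range]
      have : 0 < t := Nat.pos_of_mul_pos_left hn'.1
      have : t ≤ M / g := (Nat.le_div_iff_mul_le hg).2 (by rw [mul_comm]; exact hn'.2)
      omega
    · intro m _
      rw [Nat.mul_div_cancel_left _ hg, Nat.add_sub_cancel]
    · intro n hn
      obtain ⟨hn', t, rfl⟩ := mem_filter.1 hn
      rw [Nat.mul_div_cancel_left _ hg, Nat.sub_add_cancel]
      exact Nat.pos_of_mul_pos_left (mem_Icc.1 hn').1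
    · intro m _
      simp only [hz, circ_re, hα]
      push_cast
      congr 2
      rw [show (g : ℝ) * ((m : ℝ) + 1) = (g : ℝ) * (1 + m) by ring, mul_pow]
      ring
  by_cases hY : ∃ Y ≤ M / g, (M : ℝ) / ((4 * K : ℕ) : ℝ) ≤ ‖∑ i ∈ range Y, z i‖
  · obtain ⟨Y, hY1, hY2⟩ := hY
    obtain ⟨q, hq1, hq2, a, ha⟩ := hW (4 * K) M Y (fun n => α * ((n : ℝ) + 1) ^ k) α (by omega) hM
      (hY1.trans (Nat.div_le_self _ _)) (top_shift_pow α k) hY2
    refine ⟨q, hq1, hq2.trans_eq (by rw [mul_pow, mul_assoc]), a, ha.trans_eq ?_⟩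
    push_cast
    ring
  · exfalso
    push Not at hY
    rw [dilSum, hreindex] at hbig
    rcases Nat.eq_zero_or_pos (M / g) with h0 | hpos
    · rw [h0, sum_range_zero, mul_zero, abs_zero] at hbig
      have : (0 : ℝ) < (g : ℝ) * (M : ℝ) ^ (2 * k) / K := by positivity
      linarith
    obtain ⟨n, hn⟩ : ∃ n, M / g = n + 1 := ⟨M / g - 1, by omega⟩
    obtain ⟨Ym, hYm, hmax⟩ := exists_max_image (range (n + 2)) (fun Y => ‖∑ i ∈ range Y, z i‖)
      ⟨0, mem_range.2 (by omega)⟩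
    set B := ‖∑ i ∈ range Ym, z i‖ with hB
    have hBlt : B < (M : ℝ) / ((4 * K : ℕ) : ℝ) := hY Ym (by have := mem_range.1 hYm; omega)
    have hBle : ∀ Y ≤ n + 1, ‖∑ i ∈ range Y, z i‖ ≤ B := fun Y hY => hmax Y (mem_range.2 (by omega))
    have hgn : (g : ℝ) * ((n : ℝ) + 1) ≤ M := by
      have : g * (n + 1) ≤ M := hn ▸ Nat.mul_div_le M g
      exact_mod_cast this
    have habel : ∀ j : ℕ, ‖∑ i ∈ range (n + 1), ((((g : ℝ) * ((i : ℝ) + 1)) ^ j : ℝ) : ℂ) * z i‖ ≤
        2 * B * (M : ℝ) ^ j := by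
      intro j
      refine (norm_abel (fun i => ((g : ℝ) * ((i : ℝ) + 1)) ^ j) z B (by positivity) ?_ n hBle).trans ?_
      · intro x y hxy
        have : (x : ℝ) ≤ y := by exact_mod_cast hxy
        simp only
        gcongr
      · have : 0 ≤ B := norm_nonneg _
        gcongr
    have hsum : |∑ m ∈ range (M / g), weight k M ((g : ℝ) * ((m : ℝ) + 1)) * (z m).re| ≤
        4 * B * (M : ℝ) ^ (2 * k - 1) := by
      rw [hn]
      have e : ∑ m ∈ range (n + 1), weight k M ((g : ℝ) * ((m : ℝ) + 1)) * (z m).re =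
          (((M : ℝ) ^ k : ℝ) : ℂ).re *
            (∑ i ∈ range (n + 1), ((((g : ℝ) * ((i : ℝ) + 1)) ^ (k - 1) : ℝ) : ℂ) * z i).re -
          (∑ i ∈ range (n + 1), ((((g : ℝ) * ((i : ℝ) + 1)) ^ (2 * k - 1) : ℝ) : ℂ) * z i).re := by
        simp only [Complex.re_sum, Complex.re_ofReal_mul, Complex.ofReal_re, mul_sum, ← sum_sub_distrib]
        refine sum_congr rfl fun i _ => ?_
        rw [weight, show 2 * k - 1 = k - 1 + k by omega, pow_add]
        ring
      rw [e, Complex.ofReal_re]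
      refine (abs_sub _ _).trans ?_
      rw [abs_mul, abs_of_nonneg (by positivity : (0 : ℝ) ≤ (M : ℝ) ^ k)]
      have h1 := (Complex.abs_re_le_norm _).trans (habel (k - 1))
      have h2 := (Complex.abs_re_le_norm _).trans (habel (2 * k - 1))
      have h3 : (M : ℝ) ^ k * (2 * B * (M : ℝ) ^ (k - 1)) = 2 * B * (M : ℝ) ^ (2 * k - 1) := by
        rw [show 2 * k - 1 = k + (k - 1) by omega, pow_add]; ring
      nlinarith [mul_le_mul_of_nonneg_left h1 (show (0 : ℝ) ≤ (M : ℝ) ^ k by positivity)]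
    rw [abs_mul, Nat.abs_cast] at hbig
    have h4 : (g : ℝ) * (4 * B * (M : ℝ) ^ (2 * k - 1)) < (g : ℝ) * (M : ℝ) ^ (2 * k) / K := by
      push_cast at hBlt
      have hsucc : (M : ℝ) ^ (2 * k) = (M : ℝ) ^ (2 * k - 1) * M := by
        rw [← pow_succ, Nat.sub_add_cancel (by omega)]
      rw [lt_div_iff₀ (by positivity), hsucc]
      rw [lt_div_iff₀ (by positivity)] at hBlt
      have hp : (0 : ℝ) < (g : ℝ) * (M : ℝ) ^ (2 * k - 1) := by positivity
      nlinarith [mul_lt_mul_of_pos_left hBlt hp]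
    have := mul_le_mul_of_nonneg_left hsum (Nat.cast_nonneg g : (0 : ℝ) ≤ g)
    linarith

end Vale.Agent.P042.Odd
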