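import Mathlib

/-!
Normalised complete sums of `cos (2π a x ^ k / q)` for odd `k`, their Möbius transform in the
dilation parameter, and positivity of the weighted local factors.
-/

open Finset
open scoped ArithmeticFunction.Moebius

namespace Vale.Agent.P042.Odd

/-- The unnormalised complete sum. -/
noncomputable def gsum (k q : ℕ) [NeZero q] (a : ZMod q) : ℂ :=
  ∑ x : ZMod q, ZMod.stdAddChar (a * x ^ k)

/-- The normalised complete cosine sum. -/
noncomputable def gauss (k q : ℕ) (a : ℤ) : ℝ :=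
  (∑ x ∈ range q, Real.cos (2 * Real.pi * a * (x : ℝ) ^ k / q)) / q

lemma sum_range_zmod {M : Type*} [AddCommMonoid M] (q : ℕ) [NeZero q] (f : ZMod q → M) :
    ∑ x ∈ range q, f (x : ZMod q) = ∑ x : ZMod q, f x := by
  refine sum_bij' (fun x _ => (x : ZMod q)) (fun x _ => x.val) (by simp)
    (fun x _ => mem_range.2 (ZMod.val_lt x)) ?_ (by simp) (by simp)
  intro x hx
  exact ZMod.val_cast_of_lt (mem_range.1 hx)

lemma cos_eq_re (q : ℕ) [NeZero q] (z : ℤ) :
    Real.cos (2 * Real.pi * z / q) = (ZMod.stdAddChar (z : ZMod q)).re := by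
  rw [ZMod.stdAddChar_coe,
    show (2 * (Real.pi : ℂ) * Complex.I * z / q) = ((2 * Real.pi * z / q : ℝ) : ℂ) * Complex.I by
      push_cast; ring, Complex.exp_ofReal_mul_I_re]

lemma gauss_eq_re (k q : ℕ) [NeZero q] (a : ℤ) :
    gauss k q a = (gsum k q (a : ZMod q)).re / q := by
  rw [gauss, gsum, ← sum_range_zmod, Complex.re_sum]
  congr 1
  refine sum_congr rfl fun x _ => ?_
  have := cos_eq_re q (a * (x : ℤ) ^ k)
  push_cast at this ⊢
  rw [← this, mul_assoc (2 * Real.pi)]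

lemma gsum_conj {k q : ℕ} [NeZero q] (hk : Odd k) (a : ZMod q) :
    starRingEnd ℂ (gsum k q a) = gsum k q a := by
  rw [gsum, map_sum]
  refine (Fintype.sum_equiv (Equiv.neg (ZMod q)) _ _ fun x => ?_)
  rw [Equiv.neg_apply, hk.neg_pow, mul_neg, AddChar.map_neg_eq_inv]
  have h : ‖ZMod.stdAddChar (a * x ^ k)‖ = 1 := Circle.norm_coe _
  rw [Complex.inv_eq_conj h]

lemma gsum_im {k q : ℕ} [NeZero q] (hk : Odd k) (a : ZMod q) : (gsum k q a).im = 0 :=
  Complex.conj_eq_iff_im.1 (gsum_conj hk a)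

lemma gauss_unit {k q : ℕ} [NeZero q] (a : ℤ) (b c : ℕ) (u : ZMod q) (hu : IsUnit u)
    (h : (b : ZMod q) = u * c) : gauss k q (a * (b : ℤ) ^ k) = gauss k q (a * (c : ℤ) ^ k) := by
  obtain ⟨v, rfl⟩ := hu
  rw [gauss_eq_re, gauss_eq_re]
  congr 2
  refine Fintype.sum_equiv (Units.mulLeft v) _ _ fun x => ?_
  push_cast
  rw [h, Units.mulLeft_apply, mul_pow, mul_pow]
  congr 1
  ring

/-- Dilations only matter through their greatest common divisor with the modulus. -/
lemma gauss_gcd {k q : ℕ} [NeZero q] (a : ℤ) (g : ℕ) :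
    gauss k q (a * (g : ℤ) ^ k) = gauss k q (a * ((g.gcd q : ℕ) : ℤ) ^ k) := by
  obtain ⟨d, hd, u, hu, h⟩ := ZMod.eq_unit_mul_divisor (g : ZMod q)
  have h1 : g ≡ u.val * d [MOD q] := by
    rw [← ZMod.natCast_eq_natCast_iff]
    simp [h]
  have h2 : (u.val).Coprime q := (ZMod.isUnit_iff_coprime _ _).1 (by simpa using hu)
  have h3 : g.gcd q = d := by
    rw [h1.gcd_eq, Nat.Coprime.gcd_mul_left_cancel _ h2, Nat.gcd_eq_left hd]
  rw [h3, gauss_unit a g d u hu h]

/-- Complete sums are multiplicative. -/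
lemma gauss_mul {k : ℕ} (hk : Odd k) {q r : ℕ} [NeZero q] [NeZero r] (hqr : q.Coprime r)
    (a : ℤ) : gauss k (q * r) a =
      gauss k q (a * (r : ℤ) ^ (k - 1)) * gauss k r (a * (q : ℤ) ^ (k - 1)) := by
  obtain ⟨j, rfl⟩ : ∃ j, k = j + 1 := ⟨k - 1, by have := hk.pos; omega⟩
  rw [Nat.add_sub_cancel]
  set φ : ZMod q × ZMod r → ZMod (q * r) := fun p => ((r * p.1.val + q * p.2.val : ℕ) : ZMod (q * r))
  have hφ : Function.Bijective φ := by
    rw [Fintype.bijective_iff_injective_and_card]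
    refine ⟨fun p p' h => ?_, by simp⟩
    have h0 : r * p.1.val + q * p.2.val ≡ r * p'.1.val + q * p'.2.val [MOD q * r] :=
      (ZMod.natCast_eq_natCast_iff _ _ _).1 h
    have h1 := (ZMod.natCast_eq_natCast_iff _ _ _).2 (h0.of_mul_right r)
    have h2 := (ZMod.natCast_eq_natCast_iff _ _ _).2 (h0.of_mul_left q)
    push_cast [ZMod.natCast_zmod_val, ZMod.natCast_self, zero_mul, add_zero, zero_add] at h1 h2
    ext
    · exact ((ZMod.isUnit_iff_coprime r q).2 hqr.symm).mul_left_cancel h1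
    · exact ((ZMod.isUnit_iff_coprime q r).2 hqr).mul_left_cancel h2
  have hsum : gsum (j + 1) (q * r) (a : ZMod (q * r)) =
      gsum (j + 1) q ((a * (r : ℤ) ^ j : ℤ) : ZMod q) *
        gsum (j + 1) r ((a * (q : ℤ) ^ j : ℤ) : ZMod r) := by
    simp only [gsum]
    rw [sum_mul_sum, ← sum_product', univ_product_univ]
    refine (Fintype.sum_equiv (Equiv.ofBijective φ hφ) _ _ fun p => ?_).symm
    obtain ⟨x, y⟩ := p
    simp only [Equiv.ofBijective_apply, φ]
    have hzero : (r : ZMod (q * r)) * (q : ZMod (q * r)) = 0 := by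
      rw [← Nat.cast_mul, mul_comm, ZMod.natCast_self]
    have hpow : ∀ n : ℕ, ((r : ZMod (q * r)) * x.val + q * y.val) ^ (n + 1) =
        ((r : ZMod (q * r)) * x.val) ^ (n + 1) + ((q : ZMod (q * r)) * y.val) ^ (n + 1) := by
      intro n
      induction n with
      | zero => simp
      | succ n ih =>
        rw [pow_succ _ (n + 1), ih]
        linear_combination ((r : ZMod (q * r)) ^ n * (x.val : ZMod (q * r)) ^ (n + 1) *
          (y.val : ZMod (q * r)) + (q : ZMod (q * r)) ^ n * (y.val : ZMod (q * r)) ^ (n + 1) *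
          (x.val : ZMod (q * r))) * hzero
    have e1 : ((a * (r : ℤ) ^ j : ℤ) : ZMod q) * x ^ (j + 1) =
        ((a * (r : ℤ) ^ j * (x.val : ℤ) ^ (j + 1) : ℤ) : ZMod q) := by
      push_cast [ZMod.natCast_zmod_val]; ring
    have e2 : ((a * (q : ℤ) ^ j : ℤ) : ZMod r) * y ^ (j + 1) =
        ((a * (q : ℤ) ^ j * (y.val : ℤ) ^ (j + 1) : ℤ) : ZMod r) := by
      push_cast [ZMod.natCast_zmod_val]; ring
    have e3 : (a : ZMod (q * r)) * ((r * x.val + q * y.val : ℕ) : ZMod (q * r)) ^ (j + 1) =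
        ((a * ((r : ℤ) * x.val) ^ (j + 1) + a * ((q : ℤ) * y.val) ^ (j + 1) : ℤ) :
          ZMod (q * r)) := by
      push_cast
      rw [hpow]; ring
    rw [e1, e2, e3, ZMod.stdAddChar_coe, ZMod.stdAddChar_coe, ZMod.stdAddChar_coe, ← Complex.exp_add]
    congr 1
    have hq : (q : ℂ) ≠ 0 := NeZero.ne _
    have hr : (r : ℂ) ≠ 0 := NeZero.ne _
    push_cast
    field_simp
    ring
  rw [gauss_eq_re, gauss_eq_re, gauss_eq_re, hsum, Complex.mul_re, gsum_im hk]
  push_cast
  field_simp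
  ring

lemma gauss_congr {k q : ℕ} [NeZero q] {a b : ℤ} (h : (a : ZMod q) = b) :
    gauss k q a = gauss k q b := by
  rw [gauss_eq_re, gauss_eq_re, h]

lemma abs_gauss_le_one (k q : ℕ) (a : ℤ) : |gauss k q a| ≤ 1 := by
  rcases Nat.eq_zero_or_pos q with rfl | hq
  · simp [gauss]
  rw [gauss, abs_div, Nat.abs_cast, div_le_one (by exact_mod_cast hq)]
  refine (abs_sum_le_sum_abs _ _).trans ?_
  simpa using sum_le_sum (s := range q) fun x (_ : x ∈ range q) =>
    Real.abs_cos_le_one (2 * Real.pi * a * (x : ℝ) ^ k / q)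

/-- Scaling numerator and modulus together. -/
lemma gauss_scale (k q d : ℕ) [NeZero q] [NeZero d] (a : ℤ) :
    gauss k (q * d) (a * d) = gauss k q a := by
  rw [gauss, gauss]
  have hper : ∀ x : ℕ, Real.cos (2 * Real.pi * ((a * d : ℤ) : ℝ) * (x : ℝ) ^ k / ((q * d : ℕ) : ℝ))
      = Real.cos (2 * Real.pi * a * ((x : ℝ) ^ k) / q) := fun x => by
    have hd : (d : ℝ) ≠ 0 := NeZero.ne _
    congr 1
    push_cast
    field_simp
  simp only [hper]
  have hblock : ∀ n : ℕ, ∑ x ∈ range (q * n), Real.cos (2 * Real.pi * a * (x : ℝ) ^ k / q) =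
      n * ∑ x ∈ range q, Real.cos (2 * Real.pi * a * (x : ℝ) ^ k / q) := by
    intro n
    induction n with
    | zero => simp
    | succ n ih =>
      rw [Nat.mul_succ, sum_range_add, ih, Nat.cast_succ, add_mul, one_mul]
      congr 1
      refine sum_congr rfl fun x _ => ?_
      have e := cos_eq_re q (a * ((q * n + x : ℕ) : ℤ) ^ k)
      have e' := cos_eq_re q (a * (x : ℤ) ^ k)
      push_cast at e e' ⊢
      rw [ZMod.natCast_self, zero_mul, zero_add, ← e', ← mul_assoc, ← mul_assoc] at e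
      exact e
  rw [hblock d]
  push_cast
  have hd : (d : ℝ) ≠ 0 := NeZero.ne _
  field_simp

end Vale.Agent.P042.Odd
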