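import Vale.Agent.P042.Odd.Basic
import Vale.Agent.P042.Odd.Gauss

/-!
The singular integral is a Fejér kernel, and the dilated sums on the major arcs are the complete
sums times the singular integral.
-/

open Finset

namespace Vale.Agent.P042.Odd

lemma weight_succ (j M : ℕ) (x : ℝ) :
    weight (j + 1) M x = (M : ℝ) ^ (j + 1) * x ^ j - x ^ (2 * j + 1) := by
  rw [weight, Nat.add_sub_cancel]; ring

lemma weight_nonneg {k M : ℕ} {x : ℝ} (hx : 0 ≤ x) (hxM : x ≤ M) : 0 ≤ weight k M x :=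
  mul_nonneg (pow_nonneg hx _) (sub_nonneg.2 (pow_le_pow_left₀ hx hxM k))

lemma weight_le {k M : ℕ} (hk : 1 ≤ k) {x : ℝ} (hx : 0 ≤ x) (hxM : x ≤ M) :
    weight k M x ≤ (M : ℝ) ^ (2 * k - 1) := by
  rw [weight, show 2 * k - 1 = (k - 1) + k by omega, pow_add]
  exact mul_le_mul (pow_le_pow_left₀ hx hxM _) (sub_le_self _ (pow_nonneg hx _))
    (sub_nonneg.2 (pow_le_pow_left₀ hx hxM k)) (by positivity)

lemma abs_weight_le {k M : ℕ} (hk : 1 ≤ k) {x : ℝ} (hx : 0 ≤ x) (hxM : x ≤ M) :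
    |weight k M x| ≤ (M : ℝ) ^ (2 * k - 1) := by
  rw [abs_of_nonneg (weight_nonneg hx hxM)]; exact weight_le hk hx hxM

lemma weight_self (k M : ℕ) : weight k M (M : ℝ) = 0 := by simp [weight]

lemma continuous_weight_cos (k M : ℕ) (β : ℝ) :
    Continuous fun x : ℝ => weight k M x * Real.cos (2 * Real.pi * β * x ^ k) := by
  unfold weight; fun_prop

/-- The singular integral at a nonzero frequency, by an elementary antiderivative. -/
theorem singInt_eq {k : ℕ} (hk : 1 ≤ k) (M : ℕ) {β : ℝ} (hβ : β ≠ 0) :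
    singInt k M β =
      (1 - Real.cos (2 * Real.pi * β * (M : ℝ) ^ k)) / (k * (2 * Real.pi * β) ^ 2) := by
  obtain ⟨j, rfl⟩ : ∃ j, k = j + 1 := ⟨k - 1, by omega⟩
  set b := 2 * Real.pi * β
  have hb : b ≠ 0 := by positivity
  have hj : ((j + 1 : ℕ) : ℝ) ≠ 0 := by positivity
  have hd : ∀ x ∈ Set.uIcc (0 : ℝ) M, HasDerivAt
      (fun x : ℝ => (((M : ℝ) ^ (j + 1) - x ^ (j + 1)) * Real.sin (b * x ^ (j + 1)) / b
        - Real.cos (b * x ^ (j + 1)) / b ^ 2) / ((j + 1 : ℕ) : ℝ))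
      (weight (j + 1) M x * Real.cos (b * x ^ (j + 1))) x := by
    intro x _
    have hp := hasDerivAt_pow (j + 1) x
    have harg := hp.const_mul b
    have h := (((((hasDerivAt_const x ((M : ℝ) ^ (j + 1))).sub hp).mul harg.sin).div_const b).sub
      (harg.cos.div_const (b ^ 2))).div_const ((j + 1 : ℕ) : ℝ)
    refine h.congr_deriv ?_
    simp only [weight, Nat.add_sub_cancel, Pi.sub_apply]
    field_simp
    ring
  rw [singInt, intervalIntegral.integral_eq_sub_of_hasDerivAt hd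
    ((continuous_weight_cos _ M β).intervalIntegrable _ _)]
  simp only [sub_self, zero_mul, zero_div, zero_pow (Nat.succ_ne_zero j), mul_zero, Real.sin_zero,
    Real.cos_zero, sub_zero]
  field_simp
  ring

theorem singInt_zero {k : ℕ} (hk : 1 ≤ k) (M : ℕ) :
    singInt k M 0 = (M : ℝ) ^ (2 * k) / (2 * k) := by
  obtain ⟨j, rfl⟩ : ∃ j, k = j + 1 := ⟨k - 1, by omega⟩
  simp only [singInt, mul_zero, zero_mul, Real.cos_zero, mul_one, weight_succ]
  rw [intervalIntegral.integral_sub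
    ((by fun_prop : Continuous fun x : ℝ => (M : ℝ) ^ (j + 1) * x ^ j).intervalIntegrable _ _)
    ((by fun_prop : Continuous fun x : ℝ => x ^ (2 * j + 1)).intervalIntegrable _ _),
    intervalIntegral.integral_const_mul, integral_pow, integral_pow]
  simp only [zero_pow (Nat.succ_ne_zero _), sub_zero]
  push_cast
  field_simp
  ring

/-- Fejér: the singular integral is nonnegative. -/
theorem singInt_nonneg {k : ℕ} (hk : 1 ≤ k) (M : ℕ) (β : ℝ) : 0 ≤ singInt k M β := by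
  rcases eq_or_ne β 0 with rfl | hβ
  · rw [singInt_zero hk]; positivity
  · rw [singInt_eq hk M hβ]
    exact div_nonneg (sub_nonneg.2 (Real.cos_le_one _)) (by positivity)

theorem singInt_le {k : ℕ} (hk : 1 ≤ k) (M : ℕ) (β : ℝ) : singInt k M β ≤ (M : ℝ) ^ (2 * k) := by
  refine (le_abs_self _).trans ?_
  rw [singInt, ← Real.norm_eq_abs]
  refine (intervalIntegral.norm_integral_le_of_norm_le_const
    (C := (M : ℝ) ^ (2 * k - 1)) fun x hx => ?_).trans ?_
  · rw [Set.uIoc_of_le (Nat.cast_nonneg M)] at hx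
    rw [Real.norm_eq_abs, abs_mul]
    exact (mul_le_mul (abs_weight_le hk hx.1.le hx.2) (Real.abs_cos_le_one _) (abs_nonneg _)
      (by positivity)).trans (mul_one _).le
  · rw [sub_zero, Nat.abs_cast, ← pow_succ, show 2 * k - 1 + 1 = 2 * k by omega]

/-- Summation by parts against a periodic sequence with mean `μ`. -/
lemma abs_sum_periodic_le (f : ℕ → ℝ) (P : ℕ) (hP : 0 < P) (hper : ∀ n, f (n + P) = f n)
    (B : ℝ) (hB : ∀ n, |f n| ≤ B) (μ : ℝ) (hμ : ∑ n ∈ range P, f n = P * μ)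
    (φ : ℕ → ℝ) (Λ : ℝ) (N : ℕ) (hlip : ∀ n < N, |φ (n + 1) - φ n| ≤ Λ) (hN : φ N = 0) :
    |∑ n ∈ range N, (f n - μ) * φ n| ≤ (B + |μ|) * P * (N * Λ) := by
  set S : ℕ → ℝ := fun m => ∑ n ∈ range m, (f n - μ) with hS
  have hSP : S P = 0 := by simp [hS, sum_sub_distrib, hμ]
  have hSb : ∀ m, |S m| ≤ (B + |μ|) * P := by
    intro m
    induction m using Nat.strong_induction_on with
    | _ m ih =>
      by_cases h : m ≤ P
      · refine (abs_sum_le_sum_abs _ _).trans ?_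
        refine (sum_le_sum fun n _ => (abs_sub _ _).trans (add_le_add (hB n) le_rfl)).trans ?_
        rw [sum_const, card_range, nsmul_eq_mul, mul_comm]
        have : 0 ≤ B + |μ| := add_nonneg ((abs_nonneg _).trans (hB 0)) (abs_nonneg _)
        exact mul_le_mul_of_nonneg_left (by exact_mod_cast h) this
      · obtain ⟨r, rfl⟩ : ∃ r, m = P + r := ⟨m - P, by omega⟩
        have : S (P + r) = S P + S r := by
          simp only [hS, sum_range_add]
          congr 1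
          exact sum_congr rfl fun n _ => by rw [add_comm, hper]
        rw [this, hSP, zero_add]
        exact ih r (by omega)
  have hstep : ∀ m ≤ N, |∑ n ∈ range m, (f n - μ) * φ n - S m * φ m| ≤
      (B + |μ|) * P * (m * Λ) := by
    intro m hm
    induction m with
    | zero => simp [hS]
    | succ m ih =>
      have e : ∑ n ∈ range (m + 1), (f n - μ) * φ n - S (m + 1) * φ (m + 1) =
          (∑ n ∈ range m, (f n - μ) * φ n - S m * φ m) + S (m + 1) * (φ m - φ (m + 1)) := by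
        simp only [hS, sum_range_succ]; ring
      rw [e]
      refine (abs_add_le _ _).trans ?_
      have h2 : |S (m + 1) * (φ m - φ (m + 1))| ≤ (B + |μ|) * P * Λ := by
        rw [abs_mul, abs_sub_comm]
        exact mul_le_mul (hSb _) (hlip m (by omega)) (abs_nonneg _)
          ((abs_nonneg _).trans (hSb 0))
      have := ih (by omega)
      push_cast
      linarith
  simpa [hN] using hstep N le_rfl

/-- A sum of a Lipschitz function over integers against its integral. -/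
lemma abs_sum_sub_integral_le (φ : ℝ → ℝ) (hφ : Continuous φ) (N : ℕ) (Λ : ℝ) (hΛ : 0 ≤ Λ)
    (hlip : ∀ x ∈ Set.Icc (0 : ℝ) N, ∀ y ∈ Set.Icc (0 : ℝ) N, |φ x - φ y| ≤ Λ * |x - y|) :
    |∑ n ∈ range N, φ n - ∫ x in (0 : ℝ)..N, φ x| ≤ N * Λ := by
  have hint : ∫ x in (0 : ℝ)..N, φ x = ∑ n ∈ range N, ∫ x in (n : ℝ)..((n + 1 : ℕ) : ℝ), φ x := by
    rw [intervalIntegral.sum_integral_adjacent_intervals fun n _ => hφ.intervalIntegrable _ _]
    simp
  rw [hint, ← sum_sub_distrib]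
  refine (abs_sum_le_sum_abs _ _).trans
    ((sum_le_sum (g := fun _ => Λ) fun n hn => ?_).trans (by simp))
  have hn' : (n : ℝ) + 1 ≤ N := by exact_mod_cast mem_range.1 hn
  have e : φ n - ∫ x in (n : ℝ)..((n + 1 : ℕ) : ℝ), φ x =
      ∫ x in (n : ℝ)..((n + 1 : ℕ) : ℝ), (φ n - φ x) := by
    rw [intervalIntegral.integral_sub intervalIntegrable_const (hφ.intervalIntegrable _ _),
      intervalIntegral.integral_const]
    simp
  rw [e, ← Real.norm_eq_abs]
  refine (intervalIntegral.norm_integral_le_of_norm_le_const (C := Λ) fun x hx => ?_).trans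
    (by simp)
  have hn0 : (0 : ℝ) ≤ n := Nat.cast_nonneg n
  rw [Set.uIoc_of_le (by push_cast; linarith)] at hx
  push_cast at hx
  rw [Real.norm_eq_abs]
  refine (hlip _ ⟨hn0, by linarith⟩ x ⟨by linarith [hx.1], by linarith [hx.2]⟩).trans ?_
  refine mul_le_of_le_one_right hΛ ?_
  rw [abs_le]
  constructor <;> linarith [hx.1, hx.2]

/-- The weight times a trigonometric function is Lipschitz. -/
lemma weight_mul_lip {k M : ℕ} (hk : 1 ≤ k) (hM : 1 ≤ M) (β : ℝ) (T : ℝ → ℝ) (T' : ℝ → ℝ)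
    (hT : ∀ y, HasDerivAt T (T' y) y) (hT1 : ∀ y, |T y| ≤ 1) (hT'1 : ∀ y, |T' y| ≤ 1) :
    ∀ x ∈ Set.Icc (0 : ℝ) M, ∀ y ∈ Set.Icc (0 : ℝ) M,
      |weight k M x * T (2 * Real.pi * β * x ^ k) - weight k M y * T (2 * Real.pi * β * y ^ k)| ≤
        8 * k * (1 + |β| * (M : ℝ) ^ k) * (M : ℝ) ^ (2 * k - 2) * |x - y| := by
  obtain ⟨j, rfl⟩ : ∃ j, k = j + 1 := ⟨k - 1, by omega⟩
  intro x hx y hy
  have hM1 : (1 : ℝ) ≤ M := by exact_mod_cast hM
  set b := 2 * Real.pi * β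
  have hd : ∀ t ∈ Set.Icc (0 : ℝ) M, HasDerivWithinAt
      (fun t => weight (j + 1) M t * T (b * t ^ (j + 1)))
      (((M : ℝ) ^ (j + 1) * (j * t ^ (j - 1)) - (2 * j + 1 : ℕ) * t ^ (2 * j)) *
          T (b * t ^ (j + 1)) +
        weight (j + 1) M t * (T' (b * t ^ (j + 1)) * (b * ((j + 1 : ℕ) * t ^ j))))
      (Set.Icc 0 M) t := by
    intro t _
    have h1 : HasDerivAt (fun t => weight (j + 1) M t)
        ((M : ℝ) ^ (j + 1) * (j * t ^ (j - 1)) - (2 * j + 1 : ℕ) * t ^ (2 * j)) t := by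
      simp only [weight_succ]
      have := ((hasDerivAt_pow j t).const_mul ((M : ℝ) ^ (j + 1))).sub
        (hasDerivAt_pow (2 * j + 1) t)
      rw [Nat.add_sub_cancel] at this
      exact this
    have h2 := (hT (b * t ^ (j + 1))).comp t ((hasDerivAt_pow (j + 1) t).const_mul b)
    rw [Nat.add_sub_cancel] at h2
    exact (h1.mul h2).hasDerivWithinAt
  have hbound : ∀ t ∈ Set.Icc (0 : ℝ) M,
      ‖((M : ℝ) ^ (j + 1) * (j * t ^ (j - 1)) - (2 * j + 1 : ℕ) * t ^ (2 * j)) *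
          T (b * t ^ (j + 1)) +
        weight (j + 1) M t * (T' (b * t ^ (j + 1)) * (b * ((j + 1 : ℕ) * t ^ j)))‖ ≤
        8 * (j + 1 : ℕ) * (1 + |β| * (M : ℝ) ^ (j + 1)) * (M : ℝ) ^ (2 * (j + 1) - 2) := by
    intro t ht
    rw [Real.norm_eq_abs, show 2 * (j + 1) - 2 = 2 * j by omega]
    have hA : |(M : ℝ) ^ (j + 1) * (j * t ^ (j - 1)) - (2 * j + 1 : ℕ) * t ^ (2 * j)| ≤
        (3 * j + 1) * (M : ℝ) ^ (2 * j) := by
      have h1 : (M : ℝ) ^ (j + 1) * (j * t ^ (j - 1)) ≤ j * (M : ℝ) ^ (2 * j) := by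
        rcases Nat.eq_zero_or_pos j with rfl | hj
        · simp
        have e : (M : ℝ) ^ (2 * j) = (M : ℝ) ^ (j + 1) * (M : ℝ) ^ (j - 1) := by
          rw [← pow_add]; congr 1; omega
        rw [e, mul_left_comm]
        exact mul_le_mul_of_nonneg_left (mul_le_mul_of_nonneg_left
          (pow_le_pow_left₀ ht.1 ht.2 _) (by positivity)) (Nat.cast_nonneg j)
      have h2 : t ^ (2 * j) ≤ (M : ℝ) ^ (2 * j) := pow_le_pow_left₀ ht.1 ht.2 _
      have h3 : 0 ≤ (M : ℝ) ^ (j + 1) * (j * t ^ (j - 1)) := by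
        have := ht.1; positivity
      have h4 : 0 ≤ t ^ (2 * j) := by have := ht.1; positivity
      push_cast
      rw [abs_le]
      constructor <;> nlinarith [(Nat.cast_nonneg j : (0 : ℝ) ≤ j)]
    have hB : |b * ((j + 1 : ℕ) * t ^ j)| ≤ 8 * |β| * ((j + 1 : ℕ) * (M : ℝ) ^ j) := by
      rw [abs_mul, abs_of_nonneg (show (0 : ℝ) ≤ (j + 1 : ℕ) * t ^ j by have := ht.1; positivity)]
      refine mul_le_mul ?_ (by gcongr; exacts [ht.1, ht.2]) (by have := ht.1; positivity)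
        (by positivity)
      simp only [b, abs_mul, abs_two, abs_of_pos Real.pi_pos]
      nlinarith [Real.pi_lt_four, abs_nonneg β]
    refine (abs_add_le _ _).trans ?_
    rw [abs_mul, abs_mul, abs_mul (T' _)]
    have hW : |weight (j + 1) M t| ≤ (M : ℝ) ^ (2 * j + 1) := by
      simpa [show 2 * (j + 1) - 1 = 2 * j + 1 by omega] using
        abs_weight_le (show 1 ≤ j + 1 by omega) ht.1 ht.2
    have e1 := mul_le_mul hA (hT1 (b * t ^ (j + 1))) (abs_nonneg _) (by positivity)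
    have e2 := mul_le_mul hW (mul_le_mul (hT'1 (b * t ^ (j + 1))) hB (abs_nonneg _) zero_le_one)
      (by positivity) (by positivity)
    refine (add_le_add e1 e2).trans ?_
    have e3 : (M : ℝ) ^ (2 * j + 1) * (1 * (8 * |β| * ((j + 1 : ℕ) * (M : ℝ) ^ j))) =
        8 * (j + 1 : ℕ) * (|β| * (M : ℝ) ^ (j + 1)) * (M : ℝ) ^ (2 * j) := by
      ring
    rw [e3, mul_one]
    push_cast
    nlinarith [pow_nonneg (zero_le_one.trans hM1) (2 * j), (Nat.cast_nonneg j : (0 : ℝ) ≤ j)]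
  have := Convex.norm_image_sub_le_of_norm_hasDerivWithin_le hd hbound (convex_Icc 0 _) hy hx
  rw [Real.norm_eq_abs, Real.norm_eq_abs] at this
  exact this

lemma sin_eq_im (q : ℕ) [NeZero q] (z : ℤ) :
    Real.sin (2 * Real.pi * z / q) = (ZMod.stdAddChar (z : ZMod q)).im := by
  rw [ZMod.stdAddChar_coe,
    show (2 * (Real.pi : ℂ) * Complex.I * z / q) = ((2 * Real.pi * z / q : ℝ) : ℂ) * Complex.I by
      push_cast; ring, Complex.exp_ofReal_mul_I_im]

/-- The complete sine sum vanishes for odd exponents. -/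
lemma sum_sin_eq_zero {k q : ℕ} [NeZero q] (hk : Odd k) (a : ℤ) :
    ∑ x ∈ range q, Real.sin (2 * Real.pi * a * (x : ℝ) ^ k / q) = 0 := by
  rw [← gsum_im hk (a : ZMod q), gsum, ← sum_range_zmod, Complex.im_sum]
  refine sum_congr rfl fun x _ => ?_
  have := sin_eq_im q (a * (x : ℤ) ^ k)
  push_cast at this ⊢
  rw [← this, mul_assoc (2 * Real.pi)]

/-- Periodicity of the arithmetic factor. -/
lemma trig_periodic (T : ℝ → ℝ) (hT : ∀ (x : ℝ) (m : ℤ), T (x + m * (2 * Real.pi)) = T x)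
    (k g q : ℕ) [NeZero q] (a : ℤ) (n : ℕ) :
    (if g ∣ n + g * q then (g : ℝ) * T (2 * Real.pi * a * ((n + g * q : ℕ) : ℝ) ^ k / q) else 0) =
      if g ∣ n then (g : ℝ) * T (2 * Real.pi * a * (n : ℝ) ^ k / q) else 0 := by
  simp only [← Nat.dvd_add_iff_left (dvd_mul_right g q)]
  split_ifs
  · congr 1
    have h : (q : ℤ) ∣ a * ((n + g * q : ℕ) : ℤ) ^ k - a * (n : ℤ) ^ k := by
      rw [← ZMod.intCast_zmod_eq_zero_iff_dvd]
      push_cast
      simp
    obtain ⟨m, hm⟩ := h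
    have hm' : (a : ℝ) * ((n + g * q : ℕ) : ℝ) ^ k = a * (n : ℝ) ^ k + q * m := by
      have := congrArg (fun z : ℤ => (z : ℝ)) hm
      push_cast at this ⊢
      linarith
    rw [← hT (2 * Real.pi * a * (n : ℝ) ^ k / q) m]
    congr 1
    have hq : (q : ℝ) ≠ 0 := NeZero.ne _
    field_simp
    linear_combination hm'
  · rfl

lemma sum_dilated (T : ℝ → ℝ) (k g q : ℕ) (hg : 1 ≤ g) (a : ℤ) :
    ∑ n ∈ range (g * q), (if g ∣ n then (g : ℝ) * T (2 * Real.pi * a * (n : ℝ) ^ k / q) else 0) =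
      g * ∑ x ∈ range q, T (2 * Real.pi * ((a * (g : ℤ) ^ k : ℤ) : ℝ) * (x : ℝ) ^ k / q) := by
  rw [← sum_filter, mul_sum]
  refine sum_nbij' (fun n => n / g) (fun x => g * x) ?_ ?_ ?_ ?_ ?_
  · intro n hn
    simp only [coe_filter, coe_range, Set.mem_ofPred_eq, Set.mem_Iio, mem_filter, mem_range] at hn ⊢
    exact Nat.div_lt_of_lt_mul hn.1
  · intro x hx
    simp only [coe_filter, coe_range, Set.mem_ofPred_eq, Set.mem_Iio, mem_filter, mem_range] at hx ⊢
    exact ⟨Nat.mul_lt_mul_of_pos_left hx (by omega), dvd_mul_right _ _⟩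
  · intro n hn
    simp only [coe_filter, coe_range, Set.mem_ofPred_eq, Set.mem_Iio, mem_filter, mem_range] at hn
    exact Nat.mul_div_cancel' hn.2
  · intro x _
    exact Nat.mul_div_cancel_left x (by omega)
  · intro n hn
    simp only [mem_filter] at hn
    obtain ⟨x, rfl⟩ := hn.2
    rw [Nat.mul_div_cancel_left x (by omega)]
    push_cast
    ring_nf

/-- The dilated sum split into its periodic and its smooth factors. -/
lemma dilSum_eq {k M g q : ℕ} (a z : ℤ) (β θ : ℝ) (hθ : θ = (a : ℝ) / q + β + z) :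
    dilSum k M g θ = ∑ n ∈ Icc 1 M,
      ((if g ∣ n then (g : ℝ) * Real.cos (2 * Real.pi * a * (n : ℝ) ^ k / q) else 0) *
          (weight k M n * Real.cos (2 * Real.pi * β * (n : ℝ) ^ k)) -
        (if g ∣ n then (g : ℝ) * Real.sin (2 * Real.pi * a * (n : ℝ) ^ k / q) else 0) *
          (weight k M n * Real.sin (2 * Real.pi * β * (n : ℝ) ^ k))) := by
  rw [dilSum, mul_sum, sum_filter]
  refine sum_congr rfl fun n _ => ?_
  split_ifs
  · have e : 2 * Real.pi * θ * (n : ℝ) ^ k = (2 * Real.pi * a * (n : ℝ) ^ k / q +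
        2 * Real.pi * β * (n : ℝ) ^ k) + ((z * (n : ℤ) ^ k : ℤ) : ℝ) * (2 * Real.pi) := by
      rw [hθ]; push_cast; ring
    rw [e, Real.cos_add_int_mul_two_pi, Real.cos_add]
    ring
  · simp

/-- A product with a bounded periodic factor. -/
lemma abs_term_le {k M g : ℕ} (hk : 1 ≤ k) (f T : ℝ) (hf : |f| ≤ g) (hT : |T| ≤ 1) :
    |f * (weight k M ((0 : ℕ) : ℝ) * T)| ≤ g * (M : ℝ) ^ (2 * k - 1) := by
  rw [abs_mul, abs_mul, Nat.cast_zero]
  refine mul_le_mul hf ?_ (by positivity) (Nat.cast_nonneg _)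
  exact (mul_le_mul (abs_weight_le hk le_rfl (Nat.cast_nonneg _)) hT (abs_nonneg _)
    (by positivity)).trans (mul_one _).le

/-- Collecting the error terms. -/
lemma major_arith {A S G I g q μ X Y : ℝ} (hg : 1 ≤ g) (hq : 1 ≤ q) (hμ : |μ| ≤ 1)
    (hA : |A| ≤ (g + |μ|) * (g * q) * X) (hS : |S| ≤ g * (g * q) * X) (hG : |G| ≤ 2 * g * Y)
    (hI : |I| ≤ X) (hY : 0 ≤ Y) (hYX : Y ≤ X) :
    |A - S - G + μ * I| ≤ 6 * (g ^ 2 * q * X) := by
  have hX : 0 ≤ X := hY.trans hYX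
  have hgq : 1 ≤ g * q := one_le_mul_of_one_le_of_one_le hg hq
  have hg2 : g ≤ g ^ 2 * q := by nlinarith
  have e1 : (g + |μ|) * (g * q) * X ≤ 2 * (g ^ 2 * q) * X :=
    mul_le_mul_of_nonneg_right (by nlinarith) hX
  have e2 : 2 * g * Y ≤ 2 * (g ^ 2 * q) * X :=
    mul_le_mul (by linarith) hYX hY (by nlinarith)
  have e3 : X ≤ g ^ 2 * q * X := le_mul_of_one_le_left hX (by nlinarith)
  have e4 : g * (g * q) * X = g ^ 2 * q * X := by ring
  have e5 : |μ * I| ≤ X := by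
    rw [abs_mul]; exact (mul_le_of_le_one_left (abs_nonneg _) hμ).trans hI
  have := abs_add_le (A - S - G) (μ * I)
  have := abs_sub (A - S) G
  have := abs_sub A S
  linarith

/-- Major arc approximation. -/
theorem dilSum_major {k : ℕ} (hk : Odd k) : ∃ C : ℝ, ∀ (M g q : ℕ), 1 ≤ M → 1 ≤ g → 1 ≤ q →
    ∀ (a z : ℤ) (β θ : ℝ), θ = (a : ℝ) / q + β + z →
    |dilSum k M g θ - gauss k q (a * (g : ℤ) ^ k) * singInt k M β| ≤
      C * (g : ℝ) ^ 2 * q * (1 + |β| * (M : ℝ) ^ k) * (M : ℝ) ^ (2 * k - 1) := by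
  have hk1 : 1 ≤ k := hk.pos
  refine ⟨48 * k, fun M g q hM hg hq a z β θ hθ => ?_⟩
  have : NeZero q := ⟨by omega⟩
  have hq1 : (1 : ℝ) ≤ q := by exact_mod_cast hq
  have hg1 : (1 : ℝ) ≤ g := by exact_mod_cast hg
  set μ := gauss k q (a * (g : ℤ) ^ k)
  have hμ1 : |μ| ≤ 1 := abs_gauss_le_one _ _ _
  set f : ℕ → ℝ := fun n =>
    if g ∣ n then (g : ℝ) * Real.cos (2 * Real.pi * a * (n : ℝ) ^ k / q) else 0
  set h : ℕ → ℝ := fun n =>
    if g ∣ n then (g : ℝ) * Real.sin (2 * Real.pi * a * (n : ℝ) ^ k / q) else 0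
  set φc : ℝ → ℝ := fun x => weight k M x * Real.cos (2 * Real.pi * β * x ^ k)
  set φs : ℝ → ℝ := fun x => weight k M x * Real.sin (2 * Real.pi * β * x ^ k)
  set Λ := 8 * (k : ℝ) * (1 + |β| * (M : ℝ) ^ k) * (M : ℝ) ^ (2 * k - 2)
  have hfB : ∀ n, |f n| ≤ g := fun n => by
    simp only [f]; split_ifs
    · rw [abs_mul, Nat.abs_cast]
      exact mul_le_of_le_one_right (Nat.cast_nonneg _) (Real.abs_cos_le_one _)
    · simp
  have hhB : ∀ n, |h n| ≤ g := fun n => by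
    simp only [h]; split_ifs
    · rw [abs_mul, Nat.abs_cast]
      exact mul_le_of_le_one_right (Nat.cast_nonneg _) (Real.abs_sin_le_one _)
    · simp
  have hsplit : dilSum k M g θ = ∑ n ∈ Icc 1 M, (f n * φc n - h n * φs n) :=
    dilSum_eq a z β θ hθ
  set G : ℕ → ℝ := fun n => f n * φc n - h n * φs n
  have hGM : G M = 0 := by simp [G, φc, φs, weight_self]
  have hrange : ∑ n ∈ Icc 1 M, G n = ∑ n ∈ range M, G n - G 0 := by
    have : range (M + 1) = insert 0 (Icc 1 M) := by ext n; simp; omega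
    have h1 : ∑ n ∈ range (M + 1), G n = G 0 + ∑ n ∈ Icc 1 M, G n := by
      rw [this, sum_insert (by simp)]
    rw [sum_range_succ, hGM, add_zero] at h1
    linarith
  have hM0 : (0 : ℝ) ≤ M := Nat.cast_nonneg M
  have hG0 : |G 0| ≤ 2 * (g : ℝ) * (M : ℝ) ^ (2 * k - 1) := by
    have e1 := abs_term_le (M := M) hk1 (f 0) _ (hfB 0)
      (Real.abs_cos_le_one (2 * Real.pi * β * ((0 : ℕ) : ℝ) ^ k))
    have e2 := abs_term_le (M := M) hk1 (h 0) _ (hhB 0)
      (Real.abs_sin_le_one (2 * Real.pi * β * ((0 : ℕ) : ℝ) ^ k))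
    exact (abs_sub _ _).trans (by linarith)
  have hlipc := weight_mul_lip hk1 hM β Real.cos (fun y => -Real.sin y) Real.hasDerivAt_cos
    Real.abs_cos_le_one (fun y => by rw [abs_neg]; exact Real.abs_sin_le_one y)
  have hlips := weight_mul_lip hk1 hM β Real.sin Real.cos Real.hasDerivAt_sin
    Real.abs_sin_le_one Real.abs_cos_le_one
  have hstep : ∀ (φ : ℝ → ℝ), (∀ x ∈ Set.Icc (0 : ℝ) M, ∀ y ∈ Set.Icc (0 : ℝ) M,
      |φ x - φ y| ≤ Λ * |x - y|) → ∀ n < M, |φ ((n + 1 : ℕ) : ℝ) - φ (n : ℝ)| ≤ Λ := by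
    intro φ hφ n hn
    have hn' : (n : ℝ) + 1 ≤ M := by exact_mod_cast hn
    have h0 : (0 : ℝ) ≤ n := Nat.cast_nonneg n
    refine (hφ _ ⟨Nat.cast_nonneg _, by push_cast; linarith⟩ _ ⟨h0, by linarith⟩).trans ?_
    simp
  have hP : 0 < g * q := Nat.mul_pos hg hq
  have hA := abs_sum_periodic_le f (g * q) hP
    (fun n => trig_periodic Real.cos Real.cos_add_int_mul_two_pi k g q a n) g hfB μ
    (by
      rw [sum_dilated Real.cos k g q hg a]
      simp only [μ, gauss]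
      push_cast
      field_simp)
    (fun n => φc n) Λ M (hstep φc hlipc) (by simp [φc, weight_self])
  have hS := abs_sum_periodic_le h (g * q) hP
    (fun n => trig_periodic Real.sin Real.sin_add_int_mul_two_pi k g q a n) g hhB 0
    (by rw [sum_dilated Real.sin k g q hg a, sum_sin_eq_zero hk]; simp)
    (fun n => φs n) Λ M (hstep φs hlips) (by simp [φs, weight_self])
  have hΛ : 0 ≤ Λ := by positivity
  have hI := abs_sum_sub_integral_le φc (continuous_weight_cos k M β) M Λ hΛ hlipc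
  have hIdef : singInt k M β = ∫ x in (0 : ℝ)..M, φc x := rfl
  have key : dilSum k M g θ - μ * singInt k M β =
      (∑ n ∈ range M, (f n - μ) * φc n) - (∑ n ∈ range M, (h n - 0) * φs n) - G 0 +
        μ * (∑ n ∈ range M, φc n - ∫ x in (0 : ℝ)..M, φc x) := by
    rw [hsplit, hrange, hIdef]
    simp only [G, sub_zero, sub_mul, sum_sub_distrib, ← mul_sum]
    ring
  have hX : (M : ℝ) * Λ = 8 * k * (1 + |β| * (M : ℝ) ^ k) * (M : ℝ) ^ (2 * k - 1) := by
    rw [show 2 * k - 1 = (2 * k - 2) + 1 by omega, pow_succ]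
    simp only [Λ]; ring
  rw [hX] at hA hS hI
  rw [abs_zero, add_zero] at hS
  push_cast at hA hS
  set X := 8 * (k : ℝ) * (1 + |β| * (M : ℝ) ^ k) * (M : ℝ) ^ (2 * k - 1)
  have hX0 : (M : ℝ) ^ (2 * k - 1) ≤ X := by
    have h1 : (1 : ℝ) ≤ k := by exact_mod_cast hk1
    have h2 : 0 ≤ |β| * (M : ℝ) ^ k := by positivity
    have : (1 : ℝ) ≤ 8 * k * (1 + |β| * (M : ℝ) ^ k) := by nlinarith
    exact le_mul_of_one_le_left (by positivity) this
  have e5 : 48 * (k : ℝ) * (g : ℝ) ^ 2 * q * (1 + |β| * (M : ℝ) ^ k) * (M : ℝ) ^ (2 * k - 1) =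
      6 * ((g : ℝ) ^ 2 * q * X) := by simp only [X]; ring
  rw [key, e5]
  exact major_arith hg1 hq1 hμ1 hA hS hG0 hI (by positivity) hX0

end Vale.Agent.P042.Odd
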