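import Vale.Agent.P042.Odd.Trunc
import Vale.Agent.P042.Odd.Major
import Vale.Agent.P042.Odd.Weyl

/-!
A power saving for sets without differences equal to a positive `k`-th power, `k` odd.
-/

open Finset
open scoped ArithmeticFunction.Moebius

namespace Vale.Agent.P042.Odd

/-- The test polynomial. -/
noncomputable def test (k M D : ℕ) (θ : ℝ) : ℝ :=
  ∑ d ∈ Icc 1 D, (d : ℝ) ^ (-sigma k) *
    ∑ x ∈ d.divisorsAntidiagonal, (μ x.1 : ℝ) * dilSum k M x.2 θ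

lemma sum_cos_range (L : ℕ) [NeZero L] (z : ℤ) :
    ∑ j ∈ range L, Real.cos (2 * Real.pi * z * j / L) = if (z : ZMod L) = 0 then (L : ℝ) else 0 := by
  have h1 : ∑ j ∈ range L, Real.cos (2 * Real.pi * z * j / L) =
      (∑ j : ZMod L, ZMod.stdAddChar (j * (z : ZMod L))).re := by
    rw [← sum_range_zmod, Complex.re_sum]
    refine sum_congr rfl fun j _ => ?_
    have := cos_eq_re L ((j : ℤ) * z)
    push_cast at this ⊢
    rw [← this]
    congr 1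
    ring
  rw [h1, AddChar.sum_mulShift _ (ZMod.isPrimitive_stdAddChar L), ZMod.card]
  split_ifs <;> simp

/-- The squared modulus of the exponential sum over the set. -/
noncomputable def energy (A : Finset ℕ) (L j : ℕ) : ℝ :=
  ∑ a ∈ A, ∑ b ∈ A, Real.cos (2 * Real.pi * (((a : ℤ) - b : ℤ) : ℝ) * j / L)

lemma energy_nonneg (A : Finset ℕ) (L j : ℕ) : 0 ≤ energy A L j := by
  have h : energy A L j = (∑ a ∈ A, Real.cos (2 * Real.pi * a * j / L)) ^ 2 +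
      (∑ a ∈ A, Real.sin (2 * Real.pi * a * j / L)) ^ 2 := by
    rw [energy, sq, sq, sum_mul_sum, sum_mul_sum, ← sum_add_distrib]
    refine sum_congr rfl fun a _ => ?_
    rw [← sum_add_distrib]
    refine sum_congr rfl fun b _ => ?_
    rw [← Real.cos_sub]
    congr 1
    push_cast
    ring
  rw [h]
  positivity

lemma sum_energy_mul_dilSum {k M g : ℕ} (_hk : 1 ≤ k) {A : Finset ℕ} (hA : A ⊆ Icc 1 (M ^ k))
    (hfree : ∀ a ∈ A, ∀ b ∈ A, ∀ n : ℕ, 0 < n → a ≠ b + n ^ k) (hM : 1 ≤ M) :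
    ∑ j ∈ range (3 * M ^ k), energy A (3 * M ^ k) j *
      dilSum k M g ((j : ℝ) / ((3 * M ^ k : ℕ) : ℝ)) = 0 := by
  set L := 3 * M ^ k with hL
  have : NeZero L := ⟨by positivity⟩
  simp only [dilSum, energy, mul_sum, sum_mul]
  rw [sum_comm]
  refine sum_eq_zero fun n hn => ?_
  rw [sum_comm]
  refine sum_eq_zero fun a ha => ?_
  rw [sum_comm]
  refine sum_eq_zero fun b hb => ?_
  obtain ⟨hn1, hnM⟩ := mem_Icc.1 (mem_filter.1 hn).1
  have hnk : n ^ k ≤ M ^ k := Nat.pow_le_pow_left hnM k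
  have hn0 : 0 < n ^ k := Nat.pow_pos hn1
  have ha' := mem_Icc.1 (hA ha)
  have hb' := mem_Icc.1 (hA hb)
  have key : ∀ z : ℤ, -(L : ℤ) < z → z < L → z ≠ 0 → (z : ZMod L) ≠ 0 := by
    intro z h1 h2 h3 h4
    rw [ZMod.intCast_zmod_eq_zero_iff_dvd] at h4
    exact h3 (Int.eq_zero_of_abs_lt_dvd h4 (abs_lt.2 ⟨h1, h2⟩))
  have hz1 := key ((a : ℤ) - b + (n ^ k : ℕ)) (by omega) (by omega) (by
    intro h; exact hfree b hb a ha n hn1 (by omega))
  have hz2 := key ((a : ℤ) - b - (n ^ k : ℕ)) (by omega) (by omega) (by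
    intro h; exact hfree a ha b hb n hn1 (by omega))
  have e : ∀ j : ℕ, Real.cos (2 * Real.pi * (((a : ℤ) - b : ℤ) : ℝ) * j / L) *
      ((g : ℝ) * (weight k M n * Real.cos (2 * Real.pi * ((j : ℝ) / L) * (n : ℝ) ^ k))) =
      (g : ℝ) * weight k M n / 2 *
        (Real.cos (2 * Real.pi * (((a : ℤ) - b + (n ^ k : ℕ) : ℤ) : ℝ) * j / L) +
          Real.cos (2 * Real.pi * (((a : ℤ) - b - (n ^ k : ℕ) : ℤ) : ℝ) * j / L)) := by
    intro j
    rw [show 2 * Real.pi * (((a : ℤ) - b + (n ^ k : ℕ) : ℤ) : ℝ) * j / L =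
        2 * Real.pi * (((a : ℤ) - b : ℤ) : ℝ) * j / L + 2 * Real.pi * ((j : ℝ) / L) * (n : ℝ) ^ k by
      push_cast; ring, show 2 * Real.pi * (((a : ℤ) - b - (n ^ k : ℕ) : ℤ) : ℝ) * j / L =
        2 * Real.pi * (((a : ℤ) - b : ℤ) : ℝ) * j / L - 2 * Real.pi * ((j : ℝ) / L) * (n : ℝ) ^ k by
      push_cast; ring, Real.cos_add, Real.cos_sub]
    ring
  rw [sum_congr rfl fun j _ => e j, ← mul_sum, sum_add_distrib, sum_cos_range, sum_cos_range,
    if_neg hz1, if_neg hz2, add_zero, mul_zero]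

lemma abs_coeff_le {k d : ℕ} (hd : 1 ≤ d) : |((d : ℝ) ^ (-sigma k))| ≤ 1 := by
  rw [abs_of_nonneg (by positivity)]
  exact Real.rpow_le_one_of_one_le_of_nonpos (by exact_mod_cast hd)
    (by rw [sigma, neg_nonpos]; positivity)

/-- Replacing every dilated sum by an approximation. -/
lemma test_approx {k M D : ℕ} {θ B : ℝ} (F : ℕ → ℝ)
    (h : ∀ g, 1 ≤ g → g ≤ D → |dilSum k M g θ - F g| ≤ B) :
    |test k M D θ - ∑ d ∈ Icc 1 D, (d : ℝ) ^ (-sigma k) *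
      ∑ x ∈ d.divisorsAntidiagonal, (μ x.1 : ℝ) * F x.2| ≤ (D : ℝ) ^ 2 * B := by
  rcases Nat.eq_zero_or_pos D with rfl | hD
  · simp [test]
  have hB : 0 ≤ B := le_trans (abs_nonneg _) (h 1 le_rfl hD)
  rw [test, ← sum_sub_distrib]
  refine (abs_sum_le_sum_abs _ _).trans ((sum_le_card_nsmul _ _ ((D : ℝ) * B) fun d hd => ?_).trans_eq ?_)
  · obtain ⟨hd1, hdD⟩ := mem_Icc.1 hd
    rw [← mul_sub, abs_mul, ← sum_sub_distrib]
    refine (mul_le_mul (abs_coeff_le hd1) le_rfl (abs_nonneg _) zero_le_one).trans ?_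
    rw [one_mul]
    refine (abs_sum_le_sum_abs _ _).trans ((sum_le_card_nsmul _ _ B fun x hx => ?_).trans ?_)
    · obtain ⟨hx1, hx0⟩ := Nat.mem_divisorsAntidiagonal.1 hx
      have hg : 1 ≤ x.2 := Nat.pos_of_ne_zero fun h0 => hx0 (by rw [← hx1, h0, mul_zero])
      have hgd : x.2 ≤ D :=
        (Nat.le_of_dvd (by omega) (Dvd.intro_left x.1 hx1)).trans hdD
      rw [← mul_sub, abs_mul]
      exact (mul_le_mul (by exact_mod_cast ArithmeticFunction.abs_moebius_le_one (n := x.1))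
        (h _ hg hgd) (abs_nonneg _) zero_le_one).trans_eq (one_mul B)
    · rw [nsmul_eq_mul, ← Nat.map_div_right_divisors, card_map]
      gcongr
      exact (Nat.card_divisors_le_self d).trans hdD
  · simp [sq, mul_assoc]

lemma trunc_zero {k D : ℕ} (hD : 1 ≤ D) : trunc k D 1 0 = 1 := by
  rw [trunc, sum_eq_single 1]
  · simp [psi, gauss_one]
  · intro d hd h1
    rw [psi_eq_zero 0 (mem_Icc.1 hd).1 (fun h => h1 (Nat.dvd_one.1 h)), mul_zero]
  · intro h; exact absurd (mem_Icc.2 ⟨le_rfl, hD⟩) h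

lemma inv_le_weight {k D : ℕ} (hk : Odd k) (hD : 1 ≤ D) :
    1 / (D : ℝ) ≤ (D : ℝ) ^ (-(sigma k / 2)) := by
  have hkr : (1 : ℝ) ≤ k := by exact_mod_cast hk.pos
  have hσ : sigma k ≤ 1 := by rw [sigma, div_le_one (by positivity)]; linarith
  rw [one_div, ← Real.rpow_neg_one]
  exact Real.rpow_le_rpow_of_exponent_le (by exact_mod_cast hD) (by linarith)

lemma divisor_sq_le {k C₂ C₃ E D q : ℕ} (hk : Odd k) (hC₂ : 1 ≤ C₂) (hC₃ : 1 ≤ C₃)
    (hdiv : ∀ n : ℕ, 0 < n → n.divisors.card ^ (2 * (96 * k * (4 * E + k))) ≤ C₃ * n)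
    (hD : 1 ≤ D) (hq : 1 ≤ q) (hqle : (q : ℝ) ≤ C₂ * (D : ℝ) ^ (4 * E + k)) :
    (q.divisors.card : ℝ) ^ 2 ≤ (C₃ * C₂ : ℝ) * (D : ℝ) ^ (sigma k / 2) := by
  have hk0 : (0 : ℝ) < k := by exact_mod_cast hk.pos
  set W := 4 * E + k with hW
  set r := 96 * k * W with hr
  have hC1 : (1 : ℝ) ≤ (C₃ * C₂ : ℝ) := by exact_mod_cast Nat.mul_pos hC₃ hC₂
  have hr0 : r ≠ 0 := by
    have := hk.pos
    rw [hr, hW]; positivity
  refine (pow_le_pow_iff_left₀ (by positivity) (by positivity) hr0).1 ?_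
  calc ((q.divisors.card : ℝ) ^ 2) ^ r = (q.divisors.card : ℝ) ^ (2 * r) := by rw [← pow_mul]
    _ ≤ (C₃ : ℝ) * q := by exact_mod_cast hdiv q hq
    _ ≤ (C₃ * C₂ : ℝ) * (D : ℝ) ^ W := by rw [mul_assoc]; gcongr
    _ ≤ (C₃ * C₂ : ℝ) ^ r * (D : ℝ) ^ W := by gcongr; exact le_self_pow₀ hC1 hr0
    _ = ((C₃ * C₂ : ℝ) * (D : ℝ) ^ (sigma k / 2)) ^ r := by
        rw [mul_pow ((C₃ : ℝ) * C₂) ((D : ℝ) ^ (sigma k / 2))]
        congr 1
        rw [← Real.rpow_mul_natCast (by positivity), ← Real.rpow_natCast]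
        congr 1
        rw [hr, sigma]
        push_cast
        field_simp
        ring

lemma reduce_fraction {k C₂ E D M g q : ℕ} {θ : ℝ} {a : ℤ} (_hD : 1 ≤ D) (hM : 1 ≤ M) (hq : 1 ≤ q)
    (hg : 1 ≤ g) (hgD : g ≤ D) (hqle : q ≤ C₂ * (D ^ 4) ^ E)
    (ha : |(q : ℝ) * ((g : ℝ) ^ k * θ) - a| ≤
      ((C₂ : ℝ) * ((D ^ 4 : ℕ) : ℝ) ^ E) / (M : ℝ) ^ k) :
    ∃ (q' : ℕ) (a' : ℤ) (β : ℝ), 1 ≤ q' ∧ IsCoprime a' (q' : ℤ) ∧ θ = (a' : ℝ) / q' + β ∧
      (q' : ℝ) ≤ C₂ * (D : ℝ) ^ (4 * E + k) ∧ |β| * (M : ℝ) ^ k ≤ C₂ * ((D : ℝ) ^ 4) ^ E := by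
  set Q := q * g ^ k with hQ
  have hQ1 : 1 ≤ Q := Nat.mul_pos hq (Nat.pow_pos hg)
  set ρ : ℚ := (a : ℚ) / (Q : ℕ) with hρ
  have hden : ρ.den ≤ Q := by
    refine Nat.le_of_dvd hQ1 ?_
    have e : ρ = Rat.divInt a (Q : ℤ) := by rw [hρ, Rat.divInt_eq_div]; push_cast; rfl
    rw [e]
    exact_mod_cast Rat.den_dvd a (Q : ℤ)
  have hQr : (1 : ℝ) ≤ Q := by exact_mod_cast hQ1
  have hρr : (ρ : ℝ) = (a : ℝ) / (Q : ℝ) := by rw [hρ]; push_cast; rfl
  refine ⟨ρ.den, ρ.num, θ - (ρ : ℝ), ρ.den_pos, Int.isCoprime_iff_nat_coprime.2 (by simpa using ρ.reduced),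
    by rw [← Rat.cast_def]; ring, ?_, ?_⟩
  · have h1 : ρ.den ≤ C₂ * D ^ (4 * E + k) := by
      refine hden.trans ?_
      calc Q ≤ C₂ * (D ^ 4) ^ E * D ^ k := Nat.mul_le_mul hqle (Nat.pow_le_pow_left hgD k)
        _ = C₂ * D ^ (4 * E + k) := by rw [pow_add, ← pow_mul, mul_assoc]
    exact_mod_cast h1
  · have h2 : (q : ℝ) * ((g : ℝ) ^ k * θ) - a = (Q : ℝ) * (θ - (ρ : ℝ)) := by
      rw [hρr, mul_sub, mul_div_cancel₀ _ (by positivity), hQ]
      push_cast; ring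
    rw [h2, abs_mul, Nat.abs_cast, le_div_iff₀ (by positivity)] at ha
    push_cast at ha
    exact le_trans (mul_le_mul_of_nonneg_right (le_mul_of_one_le_left (abs_nonneg _) hQr)
      (by positivity)) ha

/-- The test polynomial is almost nonnegative next to a fraction with small denominator. -/
lemma test_major {k : ℕ} (hk : Odd k) {C₁ : ℝ}
    (hmaj : ∀ (M g q : ℕ), 1 ≤ M → 1 ≤ g → 1 ≤ q → ∀ (a z : ℤ) (β θ : ℝ),
      θ = (a : ℝ) / q + β + z →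
      |dilSum k M g θ - gauss k q (a * (g : ℤ) ^ k) * singInt k M β| ≤
        C₁ * (g : ℝ) ^ 2 * q * (1 + |β| * (M : ℝ) ^ k) * (M : ℝ) ^ (2 * k - 1))
    {C₂ C₃ E : ℕ} (hC₂ : 1 ≤ C₂) (hC₃ : 1 ≤ C₃)
    (hdiv : ∀ n : ℕ, 0 < n → n.divisors.card ^ (2 * (96 * k * (4 * E + k))) ≤ C₃ * n)
    {D M : ℕ} (hD : 1 ≤ D) (hM : M = D ^ (8 * E + k + 5)) {θ β : ℝ} {q : ℕ} {a : ℤ}
    (hq : 1 ≤ q) (hqa : IsCoprime a (q : ℤ)) (hθ : θ = (a : ℝ) / q + β)
    (hqle : (q : ℝ) ≤ C₂ * (D : ℝ) ^ (4 * E + k))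
    (hβle : |β| * (M : ℝ) ^ k ≤ C₂ * ((D : ℝ) ^ 4) ^ E) :
    -(((C₃ : ℝ) * C₂ + |C₁| * C₂ * (1 + C₂)) * (D : ℝ) ^ (-(sigma k / 2)) *
      (M : ℝ) ^ (2 * k)) ≤ test k M D θ := by
  have hk1 : 1 ≤ k := hk.pos
  have hM1 : 1 ≤ M := hM ▸ Nat.one_le_pow _ _ hD
  have hDr : (1 : ℝ) ≤ D := by exact_mod_cast hD
  set C₄ := |C₁| * C₂ * (1 + C₂) with hC₄
  set T := (M : ℝ) ^ (2 * k) with hT
  set η := (D : ℝ) ^ (-(sigma k / 2)) with hη
  have hη1 : 1 / (D : ℝ) ≤ η := inv_le_weight hk hD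
  have hTB : (M : ℝ) ^ (2 * k - 1) * (D : ℝ) ^ (8 * E + k + 5) = T := by
    rw [hT, show (D : ℝ) ^ (8 * E + k + 5) = (M : ℝ) by rw [hM, Nat.cast_pow], ← pow_succ,
      Nat.sub_add_cancel (by omega)]
  have happ : ∀ g', 1 ≤ g' → g' ≤ D →
      |dilSum k M g' θ - gauss k q (a * (g' : ℤ) ^ k) * singInt k M β| ≤ C₄ * T / (D : ℝ) ^ 3 := by
    intro g' hg1' hgD'
    refine (hmaj M g' q hM1 hg1' hq a 0 β θ (by rw [hθ]; push_cast; ring)).trans ?_
    have h1 : (1 + |β| * (M : ℝ) ^ k) ≤ (1 + (C₂ : ℝ)) * ((D : ℝ) ^ 4) ^ E := by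
      nlinarith [one_le_pow₀ (n := E) (one_le_pow₀ (n := 4) hDr)]
    calc C₁ * (g' : ℝ) ^ 2 * q * (1 + |β| * (M : ℝ) ^ k) * (M : ℝ) ^ (2 * k - 1)
        ≤ |C₁| * (D : ℝ) ^ 2 * (C₂ * (D : ℝ) ^ (4 * E + k)) *
            ((1 + (C₂ : ℝ)) * ((D : ℝ) ^ 4) ^ E) * (M : ℝ) ^ (2 * k - 1) := by
          gcongr
          · exact le_abs_self _
      _ = C₄ * ((M : ℝ) ^ (2 * k - 1) * (D : ℝ) ^ (8 * E + k + 5)) / (D : ℝ) ^ 3 := by
          rw [hC₄, ← pow_mul, eq_div_iff (by positivity)]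
          ring
      _ = _ := by rw [hTB]
  have h := test_approx _ happ
  have hmain : ∑ d ∈ Icc 1 D, (d : ℝ) ^ (-sigma k) * ∑ x ∈ d.divisorsAntidiagonal,
      (μ x.1 : ℝ) * (gauss k q (a * (x.2 : ℤ) ^ k) * singInt k M β) =
      trunc k D q a * singInt k M β := by
    rw [trunc, sum_mul]
    refine sum_congr rfl fun d _ => ?_
    rw [psi, mul_assoc, sum_mul]
    congr 1
    exact sum_congr rfl fun x _ => (mul_assoc _ _ _).symm
  rw [hmain] at h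
  have htr : -((C₃ * C₂ : ℝ) * η) ≤ trunc k D q a := by
    have h1 := full_sub_trunc_le (k := k) hD hq a
    have hfull := full_nonneg hk q hq a hqa
    have h2 : (q.divisors.card : ℝ) ^ 2 * (D : ℝ) ^ (-sigma k) ≤ (C₃ * C₂ : ℝ) * η := by
      refine (mul_le_mul_of_nonneg_right (divisor_sq_le hk hC₂ hC₃ hdiv hD hq hqle)
        (by positivity)).trans_eq ?_
      rw [mul_assoc, hη, ← Real.rpow_add (by linarith)]
      congr 2
      ring
    linarith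
  have hI0 := singInt_nonneg hk1 M β
  have hI1 := singInt_le hk1 M β
  have hmainge : -((C₃ * C₂ : ℝ) * η * T) ≤ trunc k D q a * singInt k M β := by
    have := mul_le_mul_of_nonneg_right htr hI0
    have := mul_le_mul_of_nonneg_left hI1 (show (0 : ℝ) ≤ (C₃ * C₂ : ℝ) * η by positivity)
    linarith
  have herr : (D : ℝ) ^ 2 * (C₄ * T / (D : ℝ) ^ 3) ≤ C₄ * η * T := by
    calc (D : ℝ) ^ 2 * (C₄ * T / (D : ℝ) ^ 3) = C₄ * T * (1 / D) := by field_simp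
      _ ≤ C₄ * T * η := mul_le_mul_of_nonneg_left hη1 (by positivity)
      _ = _ := by ring
  have := (abs_le.1 h).1
  linarith

/-- The test polynomial is almost nonnegative everywhere. -/
lemma test_lower {k : ℕ} (hk : Odd k) : ∃ B : ℕ, 5 ≤ B ∧ ∃ C : ℝ, 0 ≤ C ∧
    ∀ D : ℕ, 1 ≤ D → ∀ θ : ℝ,
      -(C * (D : ℝ) ^ (-(sigma k / 2)) * ((D ^ B : ℕ) : ℝ) ^ (2 * k)) ≤ test k (D ^ B) D θ := by
  obtain ⟨C₁, hmaj⟩ := dilSum_major hk
  obtain ⟨C₂, E, hmin⟩ := dilSum_minor hk.pos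
  obtain ⟨C₃, hC₃, hdiv⟩ := card_divisors_pow_le (2 * (96 * k * (4 * E + k)))
  refine ⟨8 * E + k + 5, by omega, (C₃ : ℝ) * C₂ + |C₁| * C₂ * (1 + C₂) + 1, by positivity,
    fun D hD θ => ?_⟩
  set M := D ^ (8 * E + k + 5) with hM
  have hM1 : 1 ≤ M := Nat.one_le_pow _ _ hD
  have hDr : (1 : ℝ) ≤ D := by exact_mod_cast hD
  set η := (D : ℝ) ^ (-(sigma k / 2)) with hη
  set T := (M : ℝ) ^ (2 * k) with hT
  have hpos : 0 ≤ η * T := by positivity
  by_cases hbig : ∃ g, 1 ≤ g ∧ g ≤ D ∧ (g : ℝ) * T / ((D ^ 4 : ℕ) : ℝ) ≤ |dilSum k M g θ|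
  · obtain ⟨g, hg1, hgD, hg⟩ := hbig
    obtain ⟨q, hq1, hqle, a, ha⟩ := hmin M g (D ^ 4) θ hM1 hg1 (Nat.one_le_pow _ _ hD) hg
    have hC₂1 : 1 ≤ C₂ := by
      rcases Nat.eq_zero_or_pos C₂ with rfl | h
      · simp at hqle; omega
      · exact h
    obtain ⟨q', a', β, hq', hcop, hθ, hq'le, hβle⟩ :=
      reduce_fraction hD hM1 hq1 hg1 hgD hqle ha
    have h := test_major hk hmaj hC₂1 hC₃ hdiv hD hM hq' hcop hθ hq'le hβle
    have e : ((C₃ : ℝ) * C₂ + |C₁| * C₂ * (1 + C₂) + 1) * η * T =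
        ((C₃ : ℝ) * C₂ + |C₁| * C₂ * (1 + C₂)) * η * T + η * T := by ring
    linarith
  · push Not at hbig
    have h := test_approx (k := k) (M := M) (D := D) (θ := θ) (B := T / (D : ℝ) ^ 3) (fun _ => 0)
      fun g hg1 hgD => by
        rw [sub_zero]
        refine (hbig g hg1 hgD).le.trans ?_
        push_cast
        calc (g : ℝ) * T / (D : ℝ) ^ 4 ≤ (D : ℝ) * T / (D : ℝ) ^ 4 := by gcongr
          _ = _ := by field_simp
    simp only [mul_zero, sum_const_zero, sub_zero] at h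
    have herr : (D : ℝ) ^ 2 * (T / (D : ℝ) ^ 3) ≤ η * T := by
      calc (D : ℝ) ^ 2 * (T / (D : ℝ) ^ 3) = T * (1 / D) := by field_simp
        _ ≤ _ := by rw [mul_comm η]; exact mul_le_mul_of_nonneg_left (inv_le_weight hk hD) (by positivity)
    have := (abs_le.1 h).1
    have h3 : 0 ≤ ((C₃ : ℝ) * C₂ + |C₁| * C₂ * (1 + C₂)) * (η * T) := by positivity
    linarith

/-- The test polynomial is large at the origin. -/
lemma test_zero {k : ℕ} (hk : Odd k) : ∃ D₀ : ℝ, 0 < D₀ ∧ ∀ B D : ℕ, 5 ≤ B → 1 ≤ D →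
    D₀ ≤ D → ((D ^ B : ℕ) : ℝ) ^ (2 * k) / (4 * k) ≤ test k (D ^ B) D 0 := by
  obtain ⟨C₁, hmaj⟩ := dilSum_major hk
  have hk1 : 1 ≤ k := hk.pos
  have hkr : (1 : ℝ) ≤ k := by exact_mod_cast hk1
  refine ⟨4 * k * (|C₁| + 1), by positivity, fun B D hB hD hlarge => ?_⟩
  set M := D ^ B with hM
  have hM1 : 1 ≤ M := Nat.one_le_pow _ _ hD
  have hDr : (1 : ℝ) ≤ D := by exact_mod_cast hD
  set T := (M : ℝ) ^ (2 * k) with hT
  have hTB : (M : ℝ) ^ (2 * k - 1) * (D : ℝ) ^ B = T := by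
    rw [hT, show (D : ℝ) ^ B = (M : ℝ) by rw [hM, Nat.cast_pow], ← pow_succ,
      Nat.sub_add_cancel (by omega)]
  have h := test_approx (k := k) (M := M) (D := D) (θ := 0)
    (fun g => gauss k 1 ((0 : ℤ) * (g : ℤ) ^ k) * singInt k M 0)
    (B := |C₁| * T / (D : ℝ) ^ 3) fun g hg1 hgD => by
      refine (hmaj M g 1 hM1 hg1 le_rfl 0 0 0 0 (by simp)).trans ?_
      calc C₁ * (g : ℝ) ^ 2 * ((1 : ℕ) : ℝ) * (1 + |(0 : ℝ)| * (M : ℝ) ^ k) * (M : ℝ) ^ (2 * k - 1)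
          ≤ |C₁| * (D : ℝ) ^ 2 * (M : ℝ) ^ (2 * k - 1) := by
            simp only [abs_zero, zero_mul, add_zero, Nat.cast_one, mul_one]
            gcongr
            exact le_abs_self _
        _ ≤ |C₁| * T / (D : ℝ) ^ 3 := by
            rw [le_div_iff₀ (by positivity), ← hTB]
            calc |C₁| * (D : ℝ) ^ 2 * (M : ℝ) ^ (2 * k - 1) * (D : ℝ) ^ 3
                = |C₁| * ((M : ℝ) ^ (2 * k - 1) * (D : ℝ) ^ 5) := by ring
              _ ≤ _ := by gcongr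
  have hmain : ∑ d ∈ Icc 1 D, (d : ℝ) ^ (-sigma k) * ∑ x ∈ d.divisorsAntidiagonal,
      (μ x.1 : ℝ) * (gauss k 1 ((0 : ℤ) * (x.2 : ℤ) ^ k) * singInt k M 0) = singInt k M 0 := by
    conv_rhs => rw [← one_mul (singInt k M 0), ← trunc_zero (k := k) hD, trunc, sum_mul]
    refine sum_congr rfl fun d _ => ?_
    rw [psi, mul_assoc, sum_mul]
    congr 1
    exact sum_congr rfl fun x _ => (mul_assoc _ _ _).symm
  rw [hmain, singInt_zero hk1] at h
  have herr : (D : ℝ) ^ 2 * (|C₁| * T / (D : ℝ) ^ 3) ≤ T / (4 * k) := by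
    rw [show (D : ℝ) ^ 2 * (|C₁| * T / (D : ℝ) ^ 3) = |C₁| * T / D by field_simp,
      div_le_div_iff₀ (by positivity) (by positivity)]
    nlinarith [mul_le_mul_of_nonneg_left hlarge (show (0 : ℝ) ≤ T by positivity),
      mul_nonneg (show (0 : ℝ) ≤ k by positivity) (show (0 : ℝ) ≤ T by positivity)]
  have := (abs_le.1 h).1
  have e : (M : ℝ) ^ (2 * k) / (2 * k) = T / (4 * k) + T / (4 * k) := by
    rw [hT]; field_simp; ring
  linarith

/-- The positivity argument. -/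
lemma card_bound {k M D : ℕ} {A : Finset ℕ} {lo hi : ℝ} (hk : 1 ≤ k) (hM : 1 ≤ M)
    (hA : A ⊆ Icc 1 (M ^ k)) (hfree : ∀ a ∈ A, ∀ b ∈ A, ∀ n : ℕ, 0 < n → a ≠ b + n ^ k)
    (hlo : 0 ≤ lo) (hlow : ∀ θ, -lo ≤ test k M D θ) (hhi : hi ≤ test k M D 0) :
    (A.card : ℝ) * hi ≤ lo * (3 * (M : ℝ) ^ k) := by
  rcases Nat.eq_zero_or_pos A.card with hA0 | hA0
  · rw [hA0, Nat.cast_zero, zero_mul]; positivity
  set L := 3 * M ^ k with hL
  have : NeZero L := ⟨by positivity⟩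
  have hzero : ∑ j ∈ range L, energy A L j * test k M D ((j : ℝ) / L) = 0 := by
    simp only [test, mul_sum]
    rw [sum_comm]
    refine sum_eq_zero fun d _ => ?_
    rw [sum_comm]
    refine sum_eq_zero fun x _ => ?_
    rw [sum_congr rfl fun j _ => show energy A L j * ((d : ℝ) ^ (-sigma k) *
        ((μ x.1 : ℝ) * dilSum k M x.2 ((j : ℝ) / L))) = (d : ℝ) ^ (-sigma k) * (μ x.1 : ℝ) *
        (energy A L j * dilSum k M x.2 ((j : ℝ) / L)) by ring, ← mul_sum,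
      sum_energy_mul_dilSum hk hA hfree hM, mul_zero]
  have hen : ∑ j ∈ range L, energy A L j = L * A.card := by
    simp only [energy]
    rw [sum_comm]
    calc ∑ a ∈ A, ∑ j ∈ range L, ∑ b ∈ A,
          Real.cos (2 * Real.pi * (((a : ℤ) - b : ℤ) : ℝ) * j / L)
        = ∑ a ∈ A, (L : ℝ) := by
          refine sum_congr rfl fun a ha => ?_
          rw [sum_comm, sum_eq_single_of_mem a ha]
          · rw [sum_cos_range, if_pos (by simp)]
          · intro b hb hne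
            rw [sum_cos_range, if_neg]
            rw [ZMod.intCast_zmod_eq_zero_iff_dvd]
            intro hd
            have ha' := mem_Icc.1 (hA ha)
            have hb' := mem_Icc.1 (hA hb)
            have := Int.eq_zero_of_abs_lt_dvd hd (abs_lt.2 ⟨by omega, by omega⟩)
            omega
      _ = _ := by simp [mul_comm]
  have hsum : (A.card : ℝ) ^ 2 * hi ≤ lo * (L * A.card) := by
    calc (A.card : ℝ) ^ 2 * hi
        ≤ energy A L 0 * (test k M D ((0 : ℕ) / (L : ℝ)) + lo) := by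
          have he : energy A L 0 = (A.card : ℝ) ^ 2 := by simp [energy, sq]
          rw [he, Nat.cast_zero, zero_div]
          exact mul_le_mul_of_nonneg_left (by linarith) (sq_nonneg _)
      _ ≤ ∑ j ∈ range L, energy A L j * (test k M D ((j : ℝ) / L) + lo) :=
          single_le_sum (f := fun j => energy A L j * (test k M D ((j : ℝ) / L) + lo))
            (fun j _ => mul_nonneg (energy_nonneg _ _ _) (by have := hlow ((j : ℝ) / L); linarith))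
            (mem_range.2 (NeZero.pos L))
      _ = _ := by
          simp only [mul_add, sum_add_distrib]
          rw [hzero, ← sum_mul, hen]
          ring
  have hLr : (L : ℝ) = 3 * (M : ℝ) ^ k := by rw [hL]; push_cast; ring
  rw [hLr] at hsum
  refine le_of_mul_le_mul_right ?_ (show (0 : ℝ) < A.card by exact_mod_cast hA0)
  linarith [hsum]

/-- The key inequality at the scale `M = D ^ B`. -/
lemma key {k : ℕ} (hk : Odd k) : ∃ B : ℕ, 1 ≤ B ∧ ∃ C : ℝ, ∀ D : ℕ, 1 ≤ D → ∀ A : Finset ℕ,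
    A ⊆ Icc 1 ((D ^ B) ^ k) → (∀ a ∈ A, ∀ b ∈ A, ∀ n : ℕ, 0 < n → a ≠ b + n ^ k) →
    (A.card : ℝ) ≤ C * (D : ℝ) ^ (-(sigma k / 2)) * ((D ^ B) ^ k : ℕ) := by
  obtain ⟨B, hB, C, hC, hlow⟩ := test_lower hk
  obtain ⟨D₀, hD₀, hzero⟩ := test_zero hk
  refine ⟨B, by omega, max (12 * k * C) D₀, fun D hD A hA hfree => ?_⟩
  have hk1 : 1 ≤ k := hk.pos
  have hkr : (1 : ℝ) ≤ k := by exact_mod_cast hk1
  set M := D ^ B with hM
  set η := (D : ℝ) ^ (-(sigma k / 2)) with hη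
  have hη0 : 0 ≤ η := by positivity
  have hDr : (1 : ℝ) ≤ D := by exact_mod_cast hD
  rw [Nat.cast_pow]
  rcases lt_or_ge ((D : ℝ)) D₀ with hsmall | hlarge
  · have hcard : (A.card : ℝ) ≤ (M : ℝ) ^ k := by
      have := (card_le_card hA).trans_eq (Nat.card_Icc 1 (M ^ k))
      rw [Nat.add_sub_cancel] at this
      exact_mod_cast this
    refine hcard.trans ?_
    have h1 : 1 ≤ max (12 * k * C) D₀ * η := by
      have h2 : 1 ≤ D₀ * (1 / (D : ℝ)) := by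
        rw [mul_one_div, le_div_iff₀ (by positivity)]; linarith
      exact h2.trans (mul_le_mul (le_max_right _ _) (inv_le_weight hk hD) (by positivity)
        (le_trans hD₀.le (le_max_right _ _)))
    exact le_mul_of_one_le_left (by positivity) h1
  have hM1 : 1 ≤ M := Nat.one_le_pow _ _ hD
  have hT : (0 : ℝ) < (M : ℝ) ^ (2 * k) / (4 * k) := by positivity
  have h := card_bound (hk := hk1) (hM := hM1) hA hfree
    (show 0 ≤ C * η * (M : ℝ) ^ (2 * k) by positivity) (hlow D hD) (hzero B D hB hD hlarge)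
  have hfin : (A.card : ℝ) ≤ 12 * k * C * η * (M : ℝ) ^ k := by
    refine le_of_mul_le_mul_right (h.trans_eq ?_) hT
    field_simp
    ring
  refine hfin.trans ?_
  gcongr
  exact le_max_left _ _

/-- The power saving for odd powers. -/
theorem power_saving {k : ℕ} (hk : Odd k) : ∃ c : ℝ, 0 < c ∧ ∃ C : ℝ, ∀ N : ℕ, 1 ≤ N →
    ∀ A : Finset ℕ, A ⊆ Icc 1 N → (∀ a ∈ A, ∀ b ∈ A, ∀ n : ℕ, 0 < n → a ≠ b + n ^ k) →
      (A.card : ℝ) ≤ C * (N : ℝ) ^ (1 - c) := by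
  obtain ⟨B, hB, C, hkey⟩ := key hk
  have hk1 := hk.pos
  have hσ : 0 < sigma k := by rw [sigma]; positivity
  set m := B * k with hm
  have hm1 : 1 ≤ m := Nat.mul_pos hB hk1
  set c := sigma k / 2 / m with hc
  refine ⟨c, by positivity, |C| * 2 ^ m, fun N hN A hA hfree => ?_⟩
  have hex : ∃ D : ℕ, N ≤ D ^ m := ⟨N, Nat.le_self_pow (by omega) N⟩
  set D := Nat.find hex with hD
  have hDN : N ≤ D ^ m := Nat.find_spec hex
  have hD1 : 1 ≤ D := by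
    rcases Nat.eq_zero_or_pos D with h | h
    · rw [h, zero_pow (by omega)] at hDN; omega
    · exact h
  have hup : D ^ m ≤ 2 ^ m * N := by
    rcases Nat.lt_or_ge D 2 with h | h
    · have : D = 1 := by omega
      rw [this, one_pow]
      exact Nat.mul_pos (Nat.two_pow_pos m) hN
    · have h1 : ¬ N ≤ (D - 1) ^ m := Nat.find_min hex (by omega)
      calc D ^ m ≤ (2 * (D - 1)) ^ m := Nat.pow_le_pow_left (by omega) m
        _ = 2 ^ m * (D - 1) ^ m := mul_pow _ _ _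
        _ ≤ _ := Nat.mul_le_mul_left _ (by omega)
  have hpow : (D ^ B) ^ k = D ^ m := by rw [hm, pow_mul]
  have h := hkey D hD1 A (hA.trans (Icc_subset_Icc le_rfl (hpow ▸ hDN))) hfree
  rw [hpow] at h
  have hNr : (0 : ℝ) < N := by exact_mod_cast hN
  have hDη : (D : ℝ) ^ (-(sigma k / 2)) ≤ (N : ℝ) ^ (-c) := by
    have e : (D : ℝ) ^ (-(sigma k / 2)) = (((D ^ m : ℕ) : ℝ)) ^ (-c) := by
      rw [Nat.cast_pow, ← Real.rpow_natCast_mul (Nat.cast_nonneg _), hc]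
      congr 1
      field_simp
    rw [e]
    exact Real.rpow_le_rpow_of_nonpos hNr (by exact_mod_cast hDN)
      (neg_nonpos.2 (by positivity))
  calc (A.card : ℝ) ≤ C * (D : ℝ) ^ (-(sigma k / 2)) * ((D ^ m : ℕ) : ℝ) := h
    _ ≤ |C| * (N : ℝ) ^ (-c) * (2 ^ m * (N : ℝ)) := by
        refine mul_le_mul (mul_le_mul (le_abs_self C) hDη (by positivity) (abs_nonneg C))
          (by exact_mod_cast hup) (by positivity) (by positivity)
    _ = |C| * 2 ^ m * (N : ℝ) ^ (1 - c) := by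
        rw [sub_eq_add_neg, Real.rpow_add hNr, Real.rpow_one]; ring

end Vale.Agent.P042.Odd
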