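import Vale.Agent.P042.Odd.Gauss

/-!
Positivity of the complete weighted series `∑ d ∣ q, d ^ (-σ) ψ d`, where `ψ` is the Möbius
transform of the dilated complete sum.
-/

open Finset
open scoped ArithmeticFunction.Moebius

namespace Vale.Agent.P042.Odd

/-- The decay exponent of the weights. -/
noncomputable def sigma (k : ℕ) : ℝ := 1 / (48 * k)

/-- The Möbius transform of the dilated complete sum. -/
noncomputable def psi (k q : ℕ) (a : ℤ) (d : ℕ) : ℝ :=
  ∑ x ∈ d.divisorsAntidiagonal, (μ x.1 : ℝ) * gauss k q (a * (x.2 : ℤ) ^ k)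

/-- The complete weighted series. -/
noncomputable def full (k q : ℕ) (a : ℤ) : ℝ :=
  ∑ d ∈ q.divisors, (d : ℝ) ^ (-sigma k) * psi k q a d

lemma psi_eq (k q : ℕ) (a : ℤ) (d : ℕ) :
    psi k q a d = ∑ e ∈ d.divisors, (μ e : ℝ) * gauss k q (a * ((d / e : ℕ) : ℤ) ^ k) :=
  Nat.sum_divisorsAntidiagonal fun e g => (μ e : ℝ) * gauss k q (a * (g : ℤ) ^ k)

lemma sum_divisors_coprime {M : Type*} [AddCommMonoid M] {q r : ℕ} (hq : q ≠ 0) (hr : r ≠ 0)
    (h : q.Coprime r) (f : ℕ → M) :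
    ∑ d ∈ (q * r).divisors, f d = ∑ x ∈ q.divisors, ∑ y ∈ r.divisors, f (x * y) := by
  have himg : (q * r).divisors = (q.divisors ×ˢ r.divisors).image (fun p => p.1 * p.2) := by
    ext d
    simp only [Nat.mem_divisors, mem_image, mem_product, Prod.exists, ne_eq, mul_eq_zero, not_or]
    constructor
    · rintro ⟨hd, -⟩
      obtain ⟨x, y, hx, hy, rfl⟩ := (Nat.dvd_mul).1 hd
      exact ⟨x, y, ⟨⟨hx, hq⟩, hy, hr⟩, rfl⟩
    · rintro ⟨x, y, ⟨⟨hx, -⟩, hy, -⟩, rfl⟩
      exact ⟨Nat.mul_dvd_mul hx hy, hq, hr⟩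
  rw [himg, sum_image, sum_product]
  rintro ⟨x, y⟩ hp ⟨x', y'⟩ hp' he
  simp only [coe_product, Set.mem_prod, mem_coe, Nat.mem_divisors] at hp hp'
  have e1 : (x * y).gcd q = x := by
    rw [Nat.Coprime.gcd_mul_right_cancel _ (h.symm.coprime_dvd_left hp.2.1), Nat.gcd_eq_left hp.1.1]
  have e2 : (x' * y').gcd q = x' := by
    rw [Nat.Coprime.gcd_mul_right_cancel _ (h.symm.coprime_dvd_left hp'.2.1),
      Nat.gcd_eq_left hp'.1.1]
  simp only at he
  have hx : x = x' := by rw [← e1, he, e2]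
  subst hx
  have hx0 : 0 < x := Nat.pos_of_ne_zero fun h0 => by simp_all
  exact Prod.ext rfl (Nat.eq_of_mul_eq_mul_left hx0 he)

lemma gauss_dilate_mul {k : ℕ} (hk : Odd k) {q r : ℕ} [NeZero q] [NeZero r] (h : q.Coprime r)
    (a : ℤ) {x y : ℕ} (hx : x ∣ q) (hy : y ∣ r) :
    gauss k (q * r) (a * ((x * y : ℕ) : ℤ) ^ k) =
      gauss k q (a * (r : ℤ) ^ (k - 1) * (x : ℤ) ^ k) *
        gauss k r (a * (q : ℤ) ^ (k - 1) * (y : ℤ) ^ k) := by
  rw [gauss_mul hk h]
  congr 1
  · rw [mul_right_comm a, gauss_unit (a * (r : ℤ) ^ (k - 1)) (x * y) x (y : ZMod q)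
      ((ZMod.isUnit_iff_coprime y q).2 (h.symm.coprime_dvd_left hy)) (by push_cast; ring)]
  · rw [mul_right_comm a, gauss_unit (a * (q : ℤ) ^ (k - 1)) (x * y) y (x : ZMod r)
      ((ZMod.isUnit_iff_coprime x r).2 (h.coprime_dvd_left hx)) (by push_cast; ring)]

lemma full_mul {k : ℕ} (hk : Odd k) {q r : ℕ} [NeZero q] [NeZero r] (h : q.Coprime r) (a : ℤ) :
    full k (q * r) a = full k q (a * (r : ℤ) ^ (k - 1)) * full k r (a * (q : ℤ) ^ (k - 1)) := by
  rw [full, sum_divisors_coprime (NeZero.ne q) (NeZero.ne r) h, full, full, sum_mul_sum]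
  refine sum_congr rfl fun x hx => sum_congr rfl fun y hy => ?_
  rw [Nat.mem_divisors] at hx hy
  have hxy : x.Coprime y := (h.coprime_dvd_left hx.1).coprime_dvd_right hy.1
  have hx0 : x ≠ 0 := fun e => by simp_all
  have hy0 : y ≠ 0 := fun e => by simp_all
  have hpsi : psi k (q * r) a (x * y) =
      psi k q (a * (r : ℤ) ^ (k - 1)) x * psi k r (a * (q : ℤ) ^ (k - 1)) y := by
    rw [psi_eq, sum_divisors_coprime hx0 hy0 hxy, psi_eq, psi_eq, sum_mul_sum]
    refine sum_congr rfl fun i hi => sum_congr rfl fun j hj => ?_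
    rw [Nat.mem_divisors] at hi hj
    rw [← Nat.div_mul_div_comm hi.1 hj.1,
      gauss_dilate_mul hk h a ((Nat.div_dvd_of_dvd hi.1).trans hx.1)
        ((Nat.div_dvd_of_dvd hj.1).trans hy.1),
      ArithmeticFunction.isMultiplicative_moebius.map_mul_of_coprime
        ((hxy.coprime_dvd_left hi.1).coprime_dvd_right hj.1)]
    push_cast
    ring
  rw [hpsi, Nat.cast_mul, Real.mul_rpow (Nat.cast_nonneg _) (Nat.cast_nonneg _)]
  ring

lemma gsum_mul_pow {k q : ℕ} [NeZero q] (a t : ZMod q) (ht : IsUnit t) :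
    gsum k q (a * t ^ k) = gsum k q a := by
  obtain ⟨v, rfl⟩ := ht
  refine Fintype.sum_equiv (Units.mulLeft v) _ _ fun x => ?_
  rw [Units.mulLeft_apply, mul_pow, mul_assoc]

/-- The elementary bound `|G(a / p)| ^ 2 ≤ 2 k ^ 2 / p`. -/
lemma gauss_prime_sq {k p : ℕ} [hp : Fact p.Prime] (hk : Odd k) {a : ℤ} (ha : (a : ZMod p) ≠ 0) :
    gauss k p a ^ 2 ≤ 2 * (k : ℝ) ^ 2 / p := by
  classical
  set f : ZMod p → ℝ := fun b => (gsum k p b).re with hf
  have hreal : ∀ b, (gsum k p b) = (f b : ℂ) := fun b =>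
    Complex.ext (by simp [hf]) (by simp [gsum_im hk])
  have hcount : ∑ b : ZMod p, f b ^ 2 ≤ (k : ℝ) * p ^ 2 := by
    have h1 : ((∑ b : ZMod p, f b ^ 2 : ℝ) : ℂ) =
        ∑ x : ZMod p, ∑ y : ZMod p, if x ^ k + y ^ k = 0 then (p : ℂ) else 0 := by
      push_cast
      simp only [← hreal, sq, gsum, sum_mul_sum]
      rw [sum_comm]
      refine sum_congr rfl fun x _ => ?_
      rw [sum_comm]
      refine sum_congr rfl fun y _ => ?_
      have := AddChar.sum_mulShift (x ^ k + y ^ k) (ZMod.isPrimitive_stdAddChar p)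
      rw [ZMod.card] at this
      rw [apply_ite Nat.cast, Nat.cast_zero] at this
      rw [← this]
      refine sum_congr rfl fun b _ => ?_
      rw [← AddChar.map_add_eq_mul, mul_add]
    have h2 : ∑ b : ZMod p, f b ^ 2 =
        (p : ℝ) * ∑ x : ZMod p, ((univ.filter fun y : ZMod p => x ^ k + y ^ k = 0).card : ℝ) := by
      apply Complex.ofReal_injective
      rw [h1]
      push_cast
      rw [mul_sum]
      refine sum_congr rfl fun x _ => ?_
      rw [← sum_filter, sum_const, nsmul_eq_mul]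
      ring
    have h3 : ∀ x : ZMod p, ((univ.filter fun y : ZMod p => x ^ k + y ^ k = 0).card : ℝ) ≤ k := by
      intro x
      have hsub : (univ.filter fun y : ZMod p => x ^ k + y ^ k = 0) ⊆
          (Polynomial.nthRoots k (-(x ^ k))).toFinset := by
        intro y hy
        rw [Multiset.mem_toFinset, Polynomial.mem_nthRoots hk.pos]
        exact eq_neg_of_add_eq_zero_right (mem_filter.1 hy).2
      exact_mod_cast (card_le_card hsub).trans
        ((Multiset.toFinset_card_le _).trans (Polynomial.card_nthRoots _ _))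
    rw [h2]
    refine le_trans (mul_le_mul_of_nonneg_left (sum_le_sum fun x _ => h3 x) (Nat.cast_nonneg _)) ?_
    simp [ZMod.card]
    ring_nf
    exact le_refl _
  set T : Finset (ZMod p) := (univ : Finset (ZMod p)).filter (· ≠ 0) with hT
  set O := T.image fun t => (a : ZMod p) * t ^ k with hO
  have hfib : T.card ≤ k * O.card := by
    refine card_le_mul_card_image T k fun b _ => ?_
    have hsub : (T.filter fun t => (a : ZMod p) * t ^ k = b) ⊆
        (Polynomial.nthRoots k ((a : ZMod p)⁻¹ * b)).toFinset := by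
      intro t ht
      rw [Multiset.mem_toFinset, Polynomial.mem_nthRoots hk.pos, ← (mem_filter.1 ht).2,
        inv_mul_cancel_left₀ ha]
    exact (card_le_card hsub).trans
      ((Multiset.toFinset_card_le _).trans (Polynomial.card_nthRoots _ _))
  have hTc : T.card = p - 1 := by
    rw [hT, filter_ne', card_erase_of_mem (mem_univ _), card_univ, ZMod.card]
  have horb : (O.card : ℝ) * f (a : ZMod p) ^ 2 ≤ (k : ℝ) * p ^ 2 := by
    refine le_trans ?_ hcount
    refine le_trans ?_ (sum_le_sum_of_subset_of_nonneg (subset_univ O) fun b _ _ => sq_nonneg _)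
    rw [← nsmul_eq_mul]
    refine card_nsmul_le_sum O _ _ fun b hb => ?_
    obtain ⟨t, ht, rfl⟩ := mem_image.1 hb
    simp only [hf]
    rw [gsum_mul_pow _ _ (isUnit_iff_ne_zero.2 (mem_filter.1 ht).2)]
  have hp2 : (2 : ℝ) ≤ p := by exact_mod_cast hp.out.two_le
  have hkey : ((p : ℝ) - 1) * f (a : ZMod p) ^ 2 ≤ (k : ℝ) ^ 2 * p ^ 2 := by
    have : (T.card : ℝ) ≤ k * O.card := by exact_mod_cast hfib
    rw [hTc, Nat.cast_sub hp.out.one_le, Nat.cast_one] at this
    nlinarith [sq_nonneg (f (a : ZMod p)), (Nat.cast_nonneg k : (0 : ℝ) ≤ k)]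
  rw [gauss_eq_re, div_pow, div_le_div_iff₀ (by positivity) (by positivity)]
  change f (a : ZMod p) ^ 2 * (p : ℝ) ≤ _
  nlinarith [sq_nonneg (f (a : ZMod p))]

/-- The sum over units vanishes for large exponents. -/
lemma unit_sum_zero {p k m v u : ℕ} [hp : Fact p.Prime] (hku : k = p ^ v * u) (hu : ¬ p ∣ u)
    (hm : 2 * v + 2 ≤ m) {a : ℤ} (ha : ¬ (p : ℤ) ∣ a) :
    ∑ x ∈ (univ : Finset (ZMod (p ^ m))).filter IsUnit,
      ZMod.stdAddChar ((a : ZMod (p ^ m)) * x ^ k) = 0 := by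
  classical
  have hz : ∀ n, m ≤ n → (p : ZMod (p ^ m)) ^ n = 0 := fun n hn => by
    rw [← Nat.cast_pow, ZMod.natCast_eq_zero_iff]
    exact pow_dvd_pow p hn
  set P : ZMod (p ^ m) := (p : ZMod (p ^ m)) ^ (m - 1 - v) with hP
  have hP2 : P ^ 2 = 0 := by rw [hP, ← pow_mul]; exact hz _ (by omega)
  have hadd : ∀ (x : ZMod (p ^ m)) (n : ℕ),
      (x + P) ^ n = x ^ n + (n : ZMod (p ^ m)) * x ^ (n - 1) * P := by
    intro x n
    induction n with
    | zero => simp
    | succ n ih =>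
      rw [pow_succ, ih]
      rcases n with _ | n
      · simp
      · simp only [Nat.add_sub_cancel, Nat.cast_succ, pow_succ]
        linear_combination ((n : ZMod (p ^ m)) + 1) * x ^ n * hP2
  set ω : ZMod (p ^ m) → ℂ := fun x =>
    ZMod.stdAddChar ((a : ZMod (p ^ m)) * ((u : ZMod (p ^ m)) * (p : ZMod (p ^ m)) ^ (m - 1) *
      x ^ (k - 1))) with hω
  have hkP : (k : ZMod (p ^ m)) * P = (u : ZMod (p ^ m)) * (p : ZMod (p ^ m)) ^ (m - 1) := by
    rw [hku, hP, show m - 1 = v + (m - 1 - v) by omega]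
    push_cast
    rw [show v + (m - 1 - v) - v = m - 1 - v by omega]
    ring
  have hPp : ∀ x : ZMod (p ^ m),
      (p : ZMod (p ^ m)) ^ (m - 1) * (x + P) ^ (k - 1) = (p : ZMod (p ^ m)) ^ (m - 1) * x ^ (k - 1) := by
    intro x
    have h0 : (p : ZMod (p ^ m)) ^ (m - 1) * P = 0 := by
      rw [hP, ← pow_add]; exact hz _ (by omega)
    rw [hadd]
    linear_combination ((k - 1 : ℕ) : ZMod (p ^ m)) * x ^ (k - 1 - 1) * h0
  have hshift : ∀ x : ZMod (p ^ m),
      ZMod.stdAddChar ((a : ZMod (p ^ m)) * (x + P) ^ k) =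
        ZMod.stdAddChar ((a : ZMod (p ^ m)) * x ^ k) * ω x := by
    intro x
    rw [hω, ← AddChar.map_add_eq_mul, hadd]
    congr 1
    rw [show (k : ZMod (p ^ m)) * x ^ (k - 1) * P = (k : ZMod (p ^ m)) * P * x ^ (k - 1) by ring, hkP]
    ring
  have hωinv : ∀ x : ZMod (p ^ m), ω (x + P) = ω x := by
    intro x
    simp only [hω]
    rw [mul_assoc (u : ZMod (p ^ m)), hPp, mul_assoc (u : ZMod (p ^ m))]
  set U := (univ : Finset (ZMod (p ^ m))).filter IsUnit with hU
  have hnil : IsNilpotent P := ⟨2, hP2⟩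
  have hperm : ∀ g : ZMod (p ^ m) → ℂ, ∑ x ∈ U, g (x + P) = ∑ x ∈ U, g x := by
    intro g
    refine sum_equiv (Equiv.addRight P) (fun x => ?_) (fun x _ => rfl)
    simp only [hU, mem_filter, mem_univ, true_and, Equiv.coe_addRight]
    exact ⟨fun h => IsNilpotent.isUnit_add_left_of_commute hnil h (Commute.all _ _), fun h => by
      simpa using IsNilpotent.isUnit_add_left_of_commute (IsNilpotent.neg hnil) h (Commute.all _ _)⟩
  have hstep : ∀ t : ℕ, ∑ x ∈ U, ZMod.stdAddChar ((a : ZMod (p ^ m)) * x ^ k) * ω x ^ t =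
      ∑ x ∈ U, ZMod.stdAddChar ((a : ZMod (p ^ m)) * x ^ k) := by
    intro t
    induction t with
    | zero => simp
    | succ t ih =>
      rw [← ih, ← hperm fun y => ZMod.stdAddChar ((a : ZMod (p ^ m)) * y ^ k) * ω y ^ t]
      refine sum_congr rfl fun x _ => ?_
      rw [hshift, hωinv]
      ring
  have hgeom : ∀ x ∈ U, ∑ t ∈ range p, ω x ^ t = 0 := by
    intro x hx
    have hne : ω x ≠ 1 := by
      intro h
      rw [hω, ← AddChar.map_zero_eq_one (ZMod.stdAddChar (N := p ^ m))] at h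
      have h' := ZMod.injective_stdAddChar h
      have hxu : IsUnit (x ^ (k - 1)) := (mem_filter.1 hx).2.pow _
      have hau : IsUnit ((a : ZMod (p ^ m)) * (u : ZMod (p ^ m))) := by
        have : ((a * u : ℤ) : ZMod (p ^ m)) = (a : ZMod (p ^ m)) * (u : ZMod (p ^ m)) := by
          push_cast; ring
        rw [← this, ZMod.coe_int_isUnit_iff_isCoprime, Nat.cast_pow]
        refine IsCoprime.pow_left ((Nat.prime_iff_prime_int.1 hp.out).coprime_iff_not_dvd.2 ?_)
        intro hd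
        rcases (Nat.prime_iff_prime_int.1 hp.out).dvd_or_dvd hd with h1 | h1
        · exact ha h1
        · exact hu (by exact_mod_cast h1)
      rw [show (a : ZMod (p ^ m)) * ((u : ZMod (p ^ m)) * (p : ZMod (p ^ m)) ^ (m - 1) *
          x ^ (k - 1)) = (a : ZMod (p ^ m)) * (u : ZMod (p ^ m)) * x ^ (k - 1) *
          (p : ZMod (p ^ m)) ^ (m - 1) by ring,
        (hau.mul hxu).mul_right_eq_zero, ← Nat.cast_pow, ZMod.natCast_eq_zero_iff,
        Nat.pow_dvd_pow_iff_le_right hp.out.one_lt] at h'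
      omega
    have hpow : ω x ^ p = 1 := by
      simp only [hω]
      rw [← AddChar.map_nsmul_eq_pow, nsmul_eq_mul]
      convert AddChar.map_zero_eq_one (ZMod.stdAddChar (N := p ^ m)) using 2
      rw [show (p : ZMod (p ^ m)) * ((a : ZMod (p ^ m)) * ((u : ZMod (p ^ m)) *
          (p : ZMod (p ^ m)) ^ (m - 1) * x ^ (k - 1))) = (a : ZMod (p ^ m)) *
          (u : ZMod (p ^ m)) * x ^ (k - 1) * (p : ZMod (p ^ m)) ^ (m - 1 + 1) by ring,
        hz _ (by omega), mul_zero]
    rw [geom_sum_eq hne, hpow, sub_self, zero_div]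
  have hp0 : (p : ℂ) ≠ 0 := by exact_mod_cast hp.out.ne_zero
  refine (mul_eq_zero.1 (?_ : (p : ℂ) * _ = 0)).resolve_left hp0
  have e1 : (p : ℂ) * ∑ x ∈ U, ZMod.stdAddChar ((a : ZMod (p ^ m)) * x ^ k) =
      ∑ t ∈ range p, ∑ x ∈ U, ZMod.stdAddChar ((a : ZMod (p ^ m)) * x ^ k) * ω x ^ t := by
    simp only [hstep, sum_const, card_range, nsmul_eq_mul]
  rw [e1, sum_comm]
  refine sum_eq_zero fun x hx => ?_
  rw [← mul_sum, hgeom x hx, mul_zero]

lemma gauss_one (k : ℕ) (b : ℤ) : gauss k 1 b = 1 := by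
  have h : gauss k 1 b = gauss k 1 0 := gauss_congr (Subsingleton.elim _ _)
  rw [h]
  simp [gauss]

lemma gauss_pow_dilate {p k e : ℕ} [hp : Fact p.Prime] (a : ℤ) (j : ℕ) :
    gauss k (p ^ e) (a * (p : ℤ) ^ j) = gauss k (p ^ (e - j)) a := by
  rcases le_total j e with h | h
  · have hs := gauss_scale k (p ^ (e - j)) (p ^ j) a
    rw [← pow_add, Nat.sub_add_cancel h, Nat.cast_pow] at hs
    exact hs
  · have hs := gauss_scale k 1 (p ^ e) (a * (p : ℤ) ^ (j - e))
    rw [one_mul, Nat.cast_pow, mul_assoc, ← pow_add, Nat.sub_add_cancel h, gauss_one] at hs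
    rw [hs, Nat.sub_eq_zero_of_le h, pow_zero, gauss_one]

lemma gauss_recursion {p k m v u : ℕ} [hp : Fact p.Prime] (hk : 0 < k) (hku : k = p ^ v * u)
    (hu : ¬ p ∣ u) (hm : 2 * v + 2 ≤ m) {a : ℤ} (ha : ¬ (p : ℤ) ∣ a) :
    gauss k (p ^ m) a = gauss k (p ^ (m - k)) a / p := by
  classical
  obtain ⟨n, rfl⟩ : ∃ n, m = n + 1 := ⟨m - 1, by omega⟩
  set F : ZMod (p ^ (n + 1)) → ℂ := fun x =>
    ZMod.stdAddChar ((a : ZMod (p ^ (n + 1))) * x ^ k) with hF
  have hnu : ∀ x : ZMod (p ^ (n + 1)), ¬ IsUnit x ↔ p ∣ x.val := by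
    intro x
    rw [← hp.out.coprime_iff_not_dvd.not_left, ← ZMod.natCast_zmod_val x, ZMod.isUnit_iff_coprime,
      Nat.coprime_pow_right_iff (Nat.succ_pos n), Nat.coprime_comm, ZMod.natCast_zmod_val]
  have hsplit : gsum k (p ^ (n + 1)) (a : ZMod (p ^ (n + 1))) =
      ∑ y ∈ range (p ^ n), F ((p * y : ℕ) : ZMod (p ^ (n + 1))) := by
    rw [gsum, ← sum_filter_add_sum_filter_not univ IsUnit, unit_sum_zero hku hu hm ha, zero_add]
    refine sum_bij' (fun x _ => x.val / p) (fun y _ => ((p * y : ℕ) : ZMod (p ^ (n + 1))))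
      ?_ ?_ ?_ ?_ ?_
    · intro x _
      rw [mem_range, Nat.div_lt_iff_lt_mul hp.out.pos, ← pow_succ]
      exact ZMod.val_lt x
    · intro y hy
      rw [mem_range] at hy
      rw [mem_filter, hnu, ZMod.val_cast_of_lt]
      · exact ⟨mem_univ _, Dvd.intro y rfl⟩
      · rw [pow_succ']; exact Nat.mul_lt_mul_of_pos_left hy hp.out.pos
    · intro x hx
      rw [Nat.mul_div_cancel' ((hnu x).1 (mem_filter.1 hx).2), ZMod.natCast_zmod_val]
    · intro y hy
      rw [mem_range] at hy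
      rw [ZMod.val_cast_of_lt, Nat.mul_div_cancel_left _ hp.out.pos]
      rw [pow_succ']; exact Nat.mul_lt_mul_of_pos_left hy hp.out.pos
    · intro x hx
      rw [hF, Nat.mul_div_cancel' ((hnu x).1 (mem_filter.1 hx).2), ZMod.natCast_zmod_val]
  have hre : gauss k (p ^ (n + 1)) a = gauss k (p ^ n) (a * (p : ℤ) ^ (k - 1)) / p := by
    rw [gauss_eq_re, hsplit, gauss, Complex.re_sum, div_div, ← Nat.cast_mul, ← pow_succ]
    congr 1
    refine sum_congr rfl fun y _ => ?_
    have e := cos_eq_re (p ^ (n + 1)) (a * ((p * y : ℕ) : ℤ) ^ k)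
    simp only [hF]
    push_cast at e ⊢
    rw [← e]
    have hpr : (p : ℝ) ≠ 0 := by exact_mod_cast hp.out.ne_zero
    congr 1
    rw [mul_pow, pow_succ, show (p : ℝ) ^ k = p ^ (k - 1) * p by
      rw [← pow_succ, Nat.sub_add_cancel hk]]
    field_simp
  rw [hre, gauss_pow_dilate, show n - (k - 1) = n + 1 - k by omega]

/-- The local series with a free length. -/
noncomputable def series (k p : ℕ) (a : ℤ) (e n : ℕ) : ℝ :=
  gauss k (p ^ e) a + ∑ i ∈ range n, ((p : ℝ) ^ (-sigma k)) ^ (i + 1) *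
    (gauss k (p ^ (e - (i + 1) * k)) a - gauss k (p ^ (e - i * k)) a)

lemma series_zero (k p : ℕ) (a : ℤ) (n : ℕ) : series k p a 0 n = 1 := by
  simp [series, gauss_one]

lemma series_succ (k p : ℕ) (a : ℤ) (e n : ℕ) :
    series k p a e (n + 1) = (1 - (p : ℝ) ^ (-sigma k)) * gauss k (p ^ e) a +
      (p : ℝ) ^ (-sigma k) * series k p a (e - k) n := by
  rw [series, series, sum_range_succ', mul_add, mul_sum]
  have : ∀ i, e - (i + 1) * k = e - k - i * k := fun i => by
    rw [Nat.succ_mul, add_comm, Nat.sub_add_eq]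
  simp only [this, zero_mul, Nat.sub_zero, zero_add, pow_one]
  rw [sum_congr rfl fun i _ => show
    ((p : ℝ) ^ (-sigma k)) ^ (i + 1 + 1) *
      (gauss k (p ^ (e - k - (i + 1) * k)) a - gauss k (p ^ (e - k - i * k)) a) =
    (p : ℝ) ^ (-sigma k) * (((p : ℝ) ^ (-sigma k)) ^ (i + 1) *
      (gauss k (p ^ (e - k - (i + 1) * k)) a - gauss k (p ^ (e - k - i * k)) a)) by ring]
  ring

lemma two_mul_add_one_le {k p v u : ℕ} (hk : Odd k) (hp : p.Prime) (hku : k = p ^ v * u) :
    2 * v + 1 ≤ k := by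
  rcases Nat.eq_zero_or_pos v with rfl | hv
  · have := hk.pos; omega
  have hp3 : 3 ≤ p := by
    rcases hp.eq_two_or_odd' with rfl | h
    · exfalso
      rw [hku, Nat.odd_iff, Nat.mul_mod, Nat.pow_mod] at hk
      simp [zero_pow hv.ne'] at hk
    · have := hp.two_le; rcases h with ⟨t, rfl⟩; omega
  have h1 : 2 * v + 1 ≤ 3 ^ v := by
    clear hku hv
    induction v with
    | zero => simp
    | succ v ih => rw [pow_succ]; omega
  have hu : 0 < u := Nat.pos_of_ne_zero fun h0 => by subst h0; simp [hku] at hk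
  calc 2 * v + 1 ≤ 3 ^ v := h1
    _ ≤ p ^ v := Nat.pow_le_pow_left hp3 v
    _ ≤ k := hku ▸ Nat.le_mul_of_pos_right _ hu

/-- The three inequalities the weight `h = p ^ (-σ)` has to satisfy. -/
lemma weight_facts {k p : ℕ} [hp : Fact p.Prime] (hk : Odd k) {a : ℤ} (ha : ¬ (p : ℤ) ∣ a)
    {e : ℕ} (he : 1 ≤ e) (hek : e ≤ k) :
    (p : ℝ) ^ (-sigma k) ≤ 1 ∧ 3 ≤ (p : ℝ) ^ (-sigma k) * (p + 2) ∧
      |gauss k (p ^ e) a| * (3 / 2 - (p : ℝ) ^ (-sigma k)) ≤ (p : ℝ) ^ (-sigma k) := by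
  have hk0 : (1 : ℝ) ≤ k := by exact_mod_cast hk.pos
  have hp2 : (2 : ℝ) ≤ p := by exact_mod_cast hp.out.two_le
  have hσ : 0 < sigma k := by rw [sigma]; positivity
  set h := (p : ℝ) ^ (-sigma k) with hh
  have hh0 : 0 < h := by positivity
  have hh1 : h ≤ 1 := Real.rpow_le_one_of_one_le_of_nonpos (by linarith) (by linarith)
  rcases le_or_gt p ((3 * k) ^ 4) with hs | hl
  · have h34 : 3 / 4 ≤ h := by
      have h1 : h = Real.exp (-(sigma k) * Real.log p) := by
        rw [hh, Real.rpow_def_of_pos (by linarith)]; ring_nf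
      have h2 : Real.log p ≤ 12 * k := by
        have : (p : ℝ) ≤ ((3 * k : ℝ)) ^ 4 := by exact_mod_cast hs
        refine (Real.log_le_log (by linarith) this).trans ?_
        rw [Real.log_pow]
        have := Real.log_le_sub_one_of_pos (show (0 : ℝ) < 3 * k by positivity)
        push_cast
        linarith
      have h3 : sigma k * Real.log p ≤ 1 / 4 := by
        calc sigma k * Real.log p ≤ sigma k * (12 * k) := mul_le_mul_of_nonneg_left h2 hσ.le
          _ = 1 / 4 := by rw [sigma]; field_simp; norm_num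
      rw [h1]
      have := Real.add_one_le_exp (-(sigma k) * Real.log p)
      linarith
    refine ⟨hh1, by nlinarith, ?_⟩
    nlinarith [abs_gauss_le_one k (p ^ e) a, abs_nonneg (gauss k (p ^ e) a)]
  · have hsig : sigma k ≤ 1 / 4 := by
      rw [sigma, div_le_div_iff₀ (by positivity) (by norm_num)]; linarith
    have hpl : ((3 * k : ℝ)) ^ 4 ≤ p := by exact_mod_cast hl.le
    set s := (p : ℝ) ^ (-(1 / 4) : ℝ) with hs
    have hs0 : 0 < s := by positivity
    have hsh : s ≤ h := Real.rpow_le_rpow_of_exponent_le (by linarith) (by linarith)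
    have hs4 : s ^ 4 * p = 1 := by
      rw [hs, ← Real.rpow_natCast, ← Real.rpow_mul (by linarith),
        show (-(1 / 4) : ℝ) * ((4 : ℕ) : ℝ) = -1 by norm_num, Real.rpow_neg_one]
      field_simp
    have h9 : 9 * (k : ℝ) ^ 2 * s ^ 2 ≤ 1 := by
      nlinarith [mul_le_mul_of_nonneg_left hpl (pow_nonneg hs0.le 4), sq_nonneg ((k : ℝ) * s),
        sq_nonneg (3 * (k : ℝ) * s)]
    refine ⟨hh1, ?_, ?_⟩
    · have hs1 : 3 * s ≤ 1 := by nlinarith [mul_le_mul hk0 hk0 zero_le_one (by linarith)]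
      nlinarith [mul_le_mul_of_nonneg_right hsh (show (0 : ℝ) ≤ p by linarith),
        show (3 : ℝ) ≤ s * p from by
          have : s * p * s ^ 3 = 1 := by linarith [hs4]
          nlinarith [pow_pos hs0 3, pow_le_pow_left₀ hs0.le (show s ≤ 1 / 3 by linarith) 3]]
    · have hbd : gauss k (p ^ e) a ^ 2 ≤ 2 * (k : ℝ) ^ 2 / p := by
        rcases Nat.lt_or_ge e 2 with h2 | h2
        · obtain rfl : e = 1 := by omega
          have hne : (a : ZMod p) ≠ 0 := by rwa [Ne, ZMod.intCast_zmod_eq_zero_iff_dvd]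
          have := gauss_prime_sq hk hne
          simpa using this
        · have hpk : ¬ p ∣ k := fun hd => by
            have := Nat.le_of_dvd hk.pos hd
            have : 3 * k ≤ (3 * k) ^ 4 := Nat.le_self_pow (by norm_num) _
            omega
          rw [gauss_recursion (v := 0) (u := k) hk.pos (by simp) hpk (by omega) ha,
            Nat.sub_eq_zero_of_le hek, pow_zero, gauss_one, div_pow, one_pow,
            div_le_div_iff₀ (by positivity) (by positivity)]
          nlinarith [mul_le_mul hk0 hk0 zero_le_one (by linarith), sq_nonneg (p : ℝ)]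
      have hG : |gauss k (p ^ e) a| ≤ 2 / 3 * h := by
        refine (le_trans (Real.abs_le_sqrt hbd) ?_)
        rw [Real.sqrt_le_iff]
        refine ⟨by positivity, ?_⟩
        rw [div_le_iff₀ (by linarith)]
        have : s ^ 2 ≤ h ^ 2 := pow_le_pow_left₀ hs0.le hsh 2
        nlinarith [mul_le_mul_of_nonneg_right h9 (show (0 : ℝ) ≤ p * s ^ 2 by positivity)]
      nlinarith [abs_nonneg (gauss k (p ^ e) a)]

lemma series_ge {k p : ℕ} [hp : Fact p.Prime] (hk : Odd k) {a : ℤ} (ha : ¬ (p : ℤ) ∣ a) :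
    ∀ n e : ℕ, e ≤ n → |gauss k (p ^ e) a| / 2 ≤ series k p a e n := by
  intro n
  induction n with
  | zero =>
    intro e he
    obtain rfl : e = 0 := by omega
    rw [series_zero, pow_zero, gauss_one]
    norm_num
  | succ n ih =>
    intro e he
    rcases Nat.eq_zero_or_pos e with rfl | he0
    · rw [series_zero, pow_zero, gauss_one]
      norm_num
    rw [series_succ]
    set h := (p : ℝ) ^ (-sigma k) with hh
    set G := gauss k (p ^ e) a with hG
    have hG' : -|G| ≤ G := neg_abs_le G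
    rcases le_or_gt e k with hek | hek
    · obtain ⟨h1, -, h3⟩ := weight_facts (p := p) hk ha he0 hek
      rw [Nat.sub_eq_zero_of_le hek, series_zero]
      nlinarith
    · obtain ⟨h1, h2, -⟩ := weight_facts (p := p) hk ha le_rfl hk.pos
      have hS := ih (e - k) (by have := hk.pos; omega)
      obtain ⟨v, u, hu, hku⟩ := Nat.exists_eq_pow_mul_and_not_dvd hk.pos.ne' p hp.out.ne_one
      have hrec := gauss_recursion (m := e) hk.pos hku hu
        (by have := two_mul_add_one_le hk hp.out hku; omega) ha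
      set G' := gauss k (p ^ (e - k)) a
      have hpp : (0 : ℝ) < p := by exact_mod_cast hp.out.pos
      have hh0 : 0 ≤ h := by positivity
      have habs : |G| = |G'| / p := by rw [hG, hrec, abs_div, abs_of_pos hpp]
      have hkey : |G'| / p * (3 / 2 - h) ≤ h * (|G'| / 2) := by
        rw [div_mul_eq_mul_div, div_le_iff₀ hpp]
        nlinarith [mul_le_mul_of_nonneg_left h2 (abs_nonneg G')]
      nlinarith [mul_le_mul_of_nonneg_left hS hh0]

lemma full_prime_pow {k p : ℕ} [hp : Fact p.Prime] (a : ℤ) (e : ℕ) :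
    full k (p ^ e) a = series k p a e e := by
  have hphi : ∀ i : ℕ, gauss k (p ^ e) (a * ((p ^ i : ℕ) : ℤ) ^ k) = gauss k (p ^ (e - i * k)) a := by
    intro i
    rw [Nat.cast_pow, ← pow_mul, gauss_pow_dilate]
  have hh : ∀ i : ℕ, ((p ^ i : ℕ) : ℝ) ^ (-sigma k) = ((p : ℝ) ^ (-sigma k)) ^ i := by
    intro i
    rw [Nat.cast_pow, ← Real.rpow_natCast, ← Real.rpow_mul (Nat.cast_nonneg _), mul_comm,
      Real.rpow_mul (Nat.cast_nonneg _), Real.rpow_natCast]
  rw [full, Nat.sum_divisors_prime_pow hp.out, sum_range_succ']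
  simp only [hh, pow_zero]
  rw [series, add_comm]
  congr 1
  · simp [psi]
  refine sum_congr rfl fun i _ => ?_
  congr 1
  rw [psi_eq, Nat.sum_divisors_prime_pow hp.out, sum_range_succ', sum_range_succ']
  rw [sum_eq_zero fun j _ => ?_]
  · have e1 : p ^ (i + 1) / p = p ^ i := by rw [pow_succ, Nat.mul_div_cancel _ hp.out.pos]
    simp only [zero_add, pow_one, pow_zero, Nat.div_one, e1, hphi,
      ArithmeticFunction.moebius_apply_prime hp.out, ArithmeticFunction.moebius_apply_one,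
      Int.cast_neg, Int.cast_one]
    ring
  · rw [ArithmeticFunction.moebius_apply_prime_pow hp.out (by omega), if_neg (by omega)]
    simp

/-- The complete series is nonnegative. -/
theorem full_nonneg {k : ℕ} (hk : Odd k) : ∀ q : ℕ, 0 < q → ∀ a : ℤ, IsCoprime a (q : ℤ) →
    0 ≤ full k q a := by
  intro q
  induction q using Nat.recOnPosPrimePosCoprime with
  | zero => intro h; omega
  | one =>
    intro _ a _
    simp [full, psi, gauss_one]
  | prime_pow p n hp hn =>
    intro _ a ha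
    have := Fact.mk hp
    rw [full_prime_pow]
    refine le_trans (by positivity) (series_ge hk ?_ n n le_rfl)
    intro hd
    rw [Nat.cast_pow] at ha
    exact (Nat.prime_iff_prime_int.1 hp).not_isUnit
      ((ha.of_isCoprime_of_dvd_left hd).isUnit_of_dvd' dvd_rfl (dvd_pow_self _ hn.ne'))
  | coprime q r hq hr hqr ihq ihr =>
    intro _ a ha
    have : NeZero q := ⟨by omega⟩
    have : NeZero r := ⟨by omega⟩
    rw [full_mul hk hqr]
    rw [Nat.cast_mul] at ha
    have hc : IsCoprime (q : ℤ) (r : ℤ) := Nat.isCoprime_iff_coprime.2 hqr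
    exact mul_nonneg (ihq (by omega) _ (ha.of_mul_right_left.mul_left hc.symm.pow_left))
      (ihr (by omega) _ (ha.of_mul_right_right.mul_left hc.pow_left))

end Vale.Agent.P042.Odd
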