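import Mathlib

/-!
The weight, the dilated exponential sums and the singular integral for the problem on differences
equal to odd powers.
-/

open Finset

namespace Vale.Agent.P042.Odd

/-- The weight `x ^ (k - 1) * (M ^ k - x ^ k)`. -/
noncomputable def weight (k M : ℕ) (x : ℝ) : ℝ := x ^ (k - 1) * ((M : ℝ) ^ k - x ^ k)

/-- The weighted cosine sum over the multiples of `g` in `[1, M]`, times `g`. -/
noncomputable def dilSum (k M g : ℕ) (θ : ℝ) : ℝ :=
  g * ∑ n ∈ (Icc 1 M).filter (g ∣ ·), weight k M n * Real.cos (2 * Real.pi * θ * (n : ℝ) ^ k)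

/-- The singular integral. -/
noncomputable def singInt (k M : ℕ) (β : ℝ) : ℝ :=
  ∫ x in (0 : ℝ)..M, weight k M x * Real.cos (2 * Real.pi * β * x ^ k)

end Vale.Agent.P042.Odd
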