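import Vale.Agent.P042.Odd.Local

/-!
The truncated weighted series, its distance from the complete one, and the divisor bound used
for it.
-/

open Finset
open scoped ArithmeticFunction.Moebius

namespace Vale.Agent.P042.Odd

/-- The truncated weighted series. -/
noncomputable def trunc (k D q : ℕ) (a : ℤ) : ℝ :=
  ∑ d ∈ Icc 1 D, (d : ℝ) ^ (-sigma k) * psi k q a d

lemma psi_eq_zero {k q : ℕ} [NeZero q] (a : ℤ) {d : ℕ} (hd : 0 < d) (h : ¬ d ∣ q) :
    psi k q a d = 0 := by
  have hsum : ∀ m : ℕ, m > 0 → ∑ i ∈ m.divisors, psi k q a i = gauss k q (a * (m : ℤ) ^ k) :=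
    (ArithmeticFunction.sum_eq_iff_sum_mul_moebius_eq
      (g := fun m : ℕ => gauss k q (a * (m : ℤ) ^ k))).2 fun n _ => rfl
  have hf : ∀ m : ℕ, m > 0 → ∑ i ∈ m.divisors, (if i ∣ q then psi k q a i else 0) =
      gauss k q (a * (m : ℤ) ^ k) := by
    intro m hm
    rw [← sum_filter, gauss_gcd a m, ← hsum (m.gcd q) (Nat.gcd_pos_of_pos_left _ hm)]
    refine sum_congr ?_ fun _ _ => rfl
    ext i
    simp only [mem_filter, Nat.mem_divisors, Nat.dvd_gcd_iff, ne_eq, Nat.gcd_eq_zero_iff]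
    constructor
    · rintro ⟨⟨h1, -⟩, h2⟩
      exact ⟨⟨h1, h2⟩, fun h => by omega⟩
    · rintro ⟨⟨h1, h2⟩, -⟩
      exact ⟨⟨h1, by omega⟩, h2⟩
  have hd' := (ArithmeticFunction.sum_eq_iff_sum_mul_moebius_eq.1 hf) d hd
  rw [if_neg h] at hd'
  exact hd'

lemma abs_psi_le (k q : ℕ) (a : ℤ) (d : ℕ) : |psi k q a d| ≤ (d.divisors.card : ℝ) := by
  rw [psi_eq]
  refine (abs_sum_le_sum_abs _ _).trans ((sum_le_sum (g := fun _ => (1 : ℝ)) fun e _ => ?_).trans_eq (by simp))
  rw [abs_mul]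
  exact mul_le_one₀ (by exact_mod_cast ArithmeticFunction.abs_moebius_le_one (n := e))
    (abs_nonneg _) (abs_gauss_le_one _ _ _)

lemma full_sub_trunc_le {k : ℕ} {D q : ℕ} (hD : 0 < D) (hq : 0 < q) (a : ℤ) :
    full k q a - trunc k D q a ≤ (q.divisors.card : ℝ) ^ 2 * (D : ℝ) ^ (-sigma k) := by
  have : NeZero q := ⟨hq.ne'⟩
  have h1 : trunc k D q a =
      ∑ d ∈ q.divisors.filter (· ≤ D), (d : ℝ) ^ (-sigma k) * psi k q a d := by
    rw [trunc]
    refine (sum_subset ?_ fun d hd hd' => ?_).symm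
    · intro d hd
      rw [mem_filter] at hd
      exact mem_Icc.2 ⟨Nat.pos_of_mem_divisors hd.1, hd.2⟩
    · rw [mem_Icc] at hd
      rw [psi_eq_zero a (by omega) fun hdq => hd' (mem_filter.2 ⟨Nat.mem_divisors.2 ⟨hdq, hq.ne'⟩, hd.2⟩),
        mul_zero]
  rw [h1, full, ← sum_filter_add_sum_filter_not q.divisors (· ≤ D), add_sub_cancel_left]
  refine (le_abs_self _).trans ((abs_sum_le_sum_abs _ _).trans ?_)
  refine (sum_le_card_nsmul _ _ ((q.divisors.card : ℝ) * (D : ℝ) ^ (-sigma k)) fun d hd => ?_).trans ?_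
  · obtain ⟨hdq, hDd⟩ := mem_filter.1 hd
    rw [abs_mul, abs_of_nonneg (by positivity), mul_comm (q.divisors.card : ℝ)]
    refine mul_le_mul ?_ ((abs_psi_le _ _ _ _).trans ?_) (abs_nonneg _) (by positivity)
    · refine Real.rpow_le_rpow_of_nonpos (by exact_mod_cast hD) (by exact_mod_cast (not_le.1 hDd).le) ?_
      rw [sigma, neg_nonpos]; positivity
    · exact_mod_cast card_le_card
        (Nat.divisors_subset_of_dvd hq.ne' (Nat.dvd_of_mem_divisors hdq))
  · rw [nsmul_eq_mul, sq, mul_assoc]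
    exact mul_le_mul_of_nonneg_right (by exact_mod_cast card_filter_le _ _) (by positivity)

/-- A power of the number of divisors is at most a constant times the number. -/
lemma card_divisors_pow_le (s : ℕ) :
    ∃ C : ℕ, 1 ≤ C ∧ ∀ n : ℕ, 0 < n → n.divisors.card ^ s ≤ C * n := by
  have hb : ∀ a : ℕ, (a + 1) ^ s ≤ s.factorial * 2 ^ s * 2 ^ a := fun a => by
    calc (a + 1) ^ s ≤ (a + 1).ascFactorial s := Nat.pow_succ_le_ascFactorial _ _
      _ = s.factorial * (a + s).choose s := Nat.ascFactorial_eq_factorial_mul_choose _ _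
      _ ≤ s.factorial * 2 ^ (a + s) := Nat.mul_le_mul_left _ (Nat.choose_le_two_pow _ _)
      _ = _ := by rw [pow_add]; ring
  set B := s.factorial * 2 ^ s with hB
  have hB1 : 1 ≤ B := Nat.mul_pos s.factorial_pos (Nat.two_pow_pos s)
  refine ⟨B ^ 2 ^ s, Nat.one_le_pow _ _ hB1, fun n hn => ?_⟩
  rw [Nat.card_divisors hn.ne', ← prod_pow]
  calc ∏ p ∈ n.primeFactors, (n.factorization p + 1) ^ s
      ≤ ∏ p ∈ n.primeFactors, (if p < 2 ^ s then B else 1) * p ^ n.factorization p := by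
        refine prod_le_prod' fun p hp => ?_
        have hp2 := (Nat.prime_of_mem_primeFactors hp).two_le
        split_ifs with h
        · exact (hb _).trans (Nat.mul_le_mul_left _ (Nat.pow_le_pow_left hp2 _))
        · rw [one_mul]
          calc (n.factorization p + 1) ^ s ≤ (2 ^ n.factorization p) ^ s :=
                Nat.pow_le_pow_left (Nat.lt_two_pow_self) _
            _ = (2 ^ s) ^ n.factorization p := by rw [← pow_mul, ← pow_mul, mul_comm]
            _ ≤ p ^ n.factorization p := Nat.pow_le_pow_left (not_lt.1 h) _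
    _ ≤ B ^ 2 ^ s * n := by
        rw [prod_mul_distrib]
        refine Nat.mul_le_mul ?_ (le_of_eq (Nat.prod_factorization_pow_eq_self hn.ne'))
        rw [← prod_filter, prod_const]
        refine Nat.pow_le_pow_right hB1 ?_
        refine (card_le_card (t := range (2 ^ s)) fun p hp => ?_).trans_eq (card_range _)
        exact mem_range.2 (mem_filter.1 hp).2

end Vale.Agent.P042.Odd
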